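import Vale.Agent.P078.Defs

/-!
# Projections in a MASA
-/

namespace Vale.Agent.P078

open ComplexInnerProductSpace
open scoped CStarAlgebra

variable {H : Type*} [NormedAddCommGroup H] [InnerProductSpace ℂ H] [CompleteSpace H]

lemma sa_inner {T : H →L[ℂ] H} (hT : IsSelfAdjoint T) (v w : H) : ⟪T v, w⟫ = ⟪v, T w⟫ :=
  hT.isSymmetric v w

lemma proj_apply_apply {p : H →L[ℂ] H} (hp : IsStarProjection p) (v : H) : p (p v) = p v := by
  have h : p * p = p := hp.isIdempotentElem
  exact DFunLike.congr_fun h v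

lemma proj_inner_apply {p : H →L[ℂ] H} (hp : IsStarProjection p) (v w : H) :
    ⟪p v, w⟫ = ⟪p v, p w⟫ := by
  rw [← sa_inner hp.isSelfAdjoint (p v) w, proj_apply_apply hp]

lemma proj_norm_sq_add {p : H →L[ℂ] H} (hp : IsStarProjection p) (v : H) :
    ‖v‖ ^ 2 = ‖p v‖ ^ 2 + ‖v - p v‖ ^ 2 := by
  have horth : ⟪p v, v - p v⟫ = 0 := by
    rw [inner_sub_right, ← proj_inner_apply hp, sub_self]
  have := norm_add_sq_eq_norm_sq_add_norm_sq_of_inner_eq_zero (p v) (v - p v) horth
  rw [add_sub_cancel] at this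
  simpa [pow_two] using this

lemma proj_norm_le {p : H →L[ℂ] H} (hp : IsStarProjection p) (v : H) : ‖p v‖ ≤ ‖v‖ := by
  have := proj_norm_sq_add hp v
  nlinarith [norm_nonneg (p v), norm_nonneg v, sq_nonneg ‖v - p v‖]

lemma block_norm {e b1 S T : H →L[ℂ] H} (he : IsStarProjection e) (hcomm : e * b1 = b1 * e)
    (hexp : b1 = S * e - T * (1 - e)) {c : ℝ} (hc : 0 ≤ c) (hS : ‖S‖ ≤ c) (hT : ‖T‖ ≤ c) :
    ‖b1‖ ≤ c := by
  refine ContinuousLinearMap.opNorm_le_bound _ hc (fun v => ?_)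
  have hu : b1 v = S (e v) - T (v - e v) := by rw [hexp]; rfl
  have hev : e (b1 v) = S (e v) := by
    have h0 : e (b1 v) = b1 (e v) := DFunLike.congr_fun hcomm v
    rw [h0, hexp]
    change S (e (e v)) - T (e v - e (e v)) = _
    rw [proj_apply_apply he, sub_self, map_zero, sub_zero]
  have h1 := proj_norm_sq_add he (b1 v)
  have h2 : b1 v - e (b1 v) = -(T (v - e v)) := by rw [hev, hu]; abel
  rw [h2, hev, norm_neg] at h1
  have h3 := proj_norm_sq_add he v
  have h6 := pow_le_pow_left₀ (norm_nonneg _)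
    ((S.le_opNorm (e v)).trans (mul_le_mul_of_nonneg_right hS (norm_nonneg _))) 2
  have h7 := pow_le_pow_left₀ (norm_nonneg _)
    ((T.le_opNorm (v - e v)).trans (mul_le_mul_of_nonneg_right hT (norm_nonneg _))) 2
  refine (sq_le_sq₀ (norm_nonneg _) (by positivity)).1 ?_
  rw [h1, mul_pow, h3, mul_add, ← mul_pow, ← mul_pow]
  exact add_le_add h6 h7

lemma cfc_split {B : Type*} [CStarAlgebra B] (b : B) (hb : IsSelfAdjoint b) (R : ℝ)
    (hR : ‖b‖ ≤ R) :
    ∃ bp bm : B, b = bp - bm ∧ bm * bp = 0 ∧ (∀ a, Commute b a → Commute bp a) ∧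
      ‖bp - (R / 2 : ℝ) • (1 : B)‖ ≤ R / 2 ∧ ‖bm - (R / 2 : ℝ) • (1 : B)‖ ≤ R / 2 := by
  have hR0 : 0 ≤ R := (norm_nonneg b).trans hR
  have hnorm : ∀ f : ℝ → ℝ, Continuous f → (∀ t, |t| ≤ R → 0 ≤ f t ∧ f t ≤ R) →
      ‖cfc f b - (R / 2 : ℝ) • (1 : B)‖ ≤ R / 2 := by
    intro f hf hfb
    have : cfc f b - (R / 2 : ℝ) • (1 : B) = cfc (fun t => f t - R / 2) b := by
      rw [cfc_sub f (fun _ => R / 2) b, cfc_const _ b, Algebra.algebraMap_eq_smul_one]
    rw [this]
    refine norm_cfc_le (by linarith) (fun t ht => ?_)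
    rcases subsingleton_or_nontrivial B with hs | hs
    · simp [spectrum.of_subsingleton] at ht
    have ht' : |t| ≤ R := by
      have := spectrum.norm_le_norm_of_mem ht
      exact (Real.norm_eq_abs t ▸ this).trans hR
    rw [Real.norm_eq_abs, abs_le]
    constructor <;> linarith [hfb t ht']
  refine ⟨cfc (fun t : ℝ => max t 0) b, cfc (fun t : ℝ => max (-t) 0) b, ?_, ?_,
    fun a ha => ha.cfc_real _,
    hnorm _ (continuous_id.max continuous_const)
      (fun t ht => ⟨le_max_right _ _, max_le ((le_abs_self t).trans ht) hR0⟩),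
    hnorm _ (continuous_neg.max continuous_const)
      (fun t ht => ⟨le_max_right _ _, max_le ((neg_le_abs t).trans ht) hR0⟩)⟩
  · rw [← cfc_sub (fun t : ℝ => max t 0) (fun t : ℝ => max (-t) 0) b]
    conv_lhs => rw [← cfc_id ℝ b hb]
    refine cfc_congr (fun t _ => ?_)
    simp only [id]
    rcases le_total t 0 with h | h
    · rw [max_eq_right h, max_eq_left (by linarith)]; ring
    · rw [max_eq_left h, max_eq_right (by linarith)]; ring
  · rw [← cfc_mul (fun t : ℝ => max (-t) 0) (fun t : ℝ => max t 0) b]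
    rw [← cfc_zero ℝ b]
    refine cfc_congr (fun t _ => ?_)
    rcases le_total t 0 with h | h
    · simp [max_eq_right h]
    · simp [max_eq_right (show -t ≤ 0 by linarith)]

variable {A : StarSubalgebra ℂ (H →L[ℂ] H)} (hA : IsMASA A)
include hA

lemma masa_comm {a b : H →L[ℂ] H} (ha : a ∈ A) (hb : b ∈ A) : a * b = b * a := by
  have : b ∈ Set.centralizer (A : Set (H →L[ℂ] H)) := by rw [hA]; exact hb
  exact this a ha

lemma mem_of_commute {y : H →L[ℂ] H} (h : ∀ a ∈ A, a * y = y * a) : y ∈ A := by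
  have : y ∈ Set.centralizer (A : Set (H →L[ℂ] H)) := fun a ha => h a ha
  rw [hA] at this
  exact this

lemma proj_mem_of_invariant (K : Submodule ℂ H) [K.HasOrthogonalProjection]
    (hK : ∀ a ∈ A, ∀ k ∈ K, a k ∈ K) : K.starProjection ∈ A := by
  refine mem_of_commute hA (fun a ha => ?_)
  refine ContinuousLinearMap.ext (fun v => ?_)
  change a (K.starProjection v) = K.starProjection (a v)
  refine (Submodule.eq_starProjection_of_mem_orthogonal (hK a ha _ (K.starProjection_apply_mem v))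
    ?_).symm
  rw [← map_sub, Submodule.mem_orthogonal]
  intro k hk
  have hs : star a k ∈ K := hK _ (star_mem ha) k hk
  have := (Submodule.mem_orthogonal _ _).1 (K.sub_starProjection_mem_orthogonal v) _ hs
  rw [ContinuousLinearMap.star_eq_adjoint, ContinuousLinearMap.adjoint_inner_left] at this
  exact this

lemma mul_isStarProjection {p q : H →L[ℂ] H} (hp : IsStarProjection p) (hq : IsStarProjection q)
    (hpA : p ∈ A) (hqA : q ∈ A) : IsStarProjection (p * q) := by
  refine ⟨?_, ?_⟩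
  · change p * q * (p * q) = p * q
    calc p * q * (p * q) = p * (q * p) * q := by simp only [mul_assoc]
      _ = p * (p * q) * q := by rw [masa_comm hA hqA hpA]
      _ = p * p * (q * q) := by simp only [mul_assoc]
      _ = p * q := by rw [hp.isIdempotentElem, hq.isIdempotentElem]
  · change star (p * q) = p * q
    rw [star_mul, hp.isSelfAdjoint.star_eq, hq.isSelfAdjoint.star_eq, masa_comm hA hqA hpA]

/-- Only multiples of the projections are needed to test membership. -/
lemma range_proj_mem {b : H →L[ℂ] H} (hb : b ∈ A) :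
    ∃ e ∈ A, IsStarProjection e ∧ (∀ v, e (b v) = b v) ∧
      ∀ c : H →L[ℂ] H, c * b = 0 → c * e = 0 := by
  let K : Submodule ℂ H := b.range.topologicalClosure
  have : CompleteSpace K := Submodule.topologicalClosure.completeSpace _
  refine ⟨K.starProjection, ?_, isStarProjection_starProjection, fun v => ?_, fun c hc => ?_⟩
  · refine proj_mem_of_invariant hA K (fun a ha k hk => ?_)
    have hmaps : Set.MapsTo a (b.range : Set H) (b.range : Set H) := by
      rintro _ ⟨u, rfl⟩
      refine ⟨a u, ?_⟩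
      exact DFunLike.congr_fun (masa_comm hA hb ha) u
    exact (hmaps.closure a.continuous) hk
  · exact Submodule.starProjection_eq_self_iff.2 (b.range.le_topologicalClosure ⟨v, rfl⟩)
  · refine ContinuousLinearMap.ext (fun v => ?_)
    have hcl : IsClosed {k : H | c k = 0} := isClosed_eq c.continuous continuous_const
    have hsub : (b.range : Set H) ⊆ {k : H | c k = 0} := by
      rintro _ ⟨u, rfl⟩
      exact DFunLike.congr_fun hc u
    exact hcl.closure_subset_iff.2 hsub (K.starProjection_apply_mem v)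

lemma halving (b : H →L[ℂ] H) (R : ℝ) (hbA : b ∈ A) (hb : IsSelfAdjoint b) (hR : ‖b‖ ≤ R) :
    ∃ b1 e : H →L[ℂ] H, e ∈ A ∧ IsStarProjection e ∧ b1 ∈ A ∧ IsSelfAdjoint b1 ∧ ‖b1‖ ≤ R / 2 ∧
      b1 = b - (R / 2 : ℝ) • (e - (1 - e)) := by
  have hR0 : 0 ≤ R := (norm_nonneg b).trans hR
  obtain ⟨bp, bm, hsplit, hmp, hcom, hbpn, hbmn⟩ := cfc_split b hb R hR
  have hposA : bp ∈ A :=
    mem_of_commute hA (fun a ha => ((hcom a (masa_comm hA hbA ha)).eq).symm)
  obtain ⟨e, heA, he, hfix, hkill⟩ := range_proj_mem hA hposA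
  have hebp : e * bp = bp := ContinuousLinearMap.ext (fun v => hfix v)
  have hbme : bm * e = 0 := hkill bm hmp
  have hbpe : bp * e = bp := (masa_comm hA hposA heA).trans hebp
  have hb1A : b - (R / 2 : ℝ) • (e - (1 - e)) ∈ A := by
    have h1 : ((R / 2 : ℝ) : ℂ) • (e - (1 - e)) ∈ A :=
      A.toSubalgebra.smul_mem (sub_mem heA (sub_mem (one_mem A) heA)) _
    rw [Complex.coe_smul] at h1
    exact sub_mem hbA h1
  have hb1s : IsSelfAdjoint (b - (R / 2 : ℝ) • (e - (1 - e))) :=
    hb.sub (IsSelfAdjoint.smul (IsSelfAdjoint.all (R / 2 : ℝ))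
      (he.isSelfAdjoint.sub ((IsSelfAdjoint.one _).sub he.isSelfAdjoint)))
  refine ⟨_, e, heA, he, hb1A, hb1s, ?_, rfl⟩
  generalize hb1 : b - (R / 2 : ℝ) • (e - (1 - e)) = b1
  rw [hb1] at hb1A
  have hexp : b1 = (bp - (R / 2 : ℝ) • (1 : H →L[ℂ] H)) * e
      - (bm - (R / 2 : ℝ) • (1 : H →L[ℂ] H)) * (1 - e) := by
    rw [← hb1, hsplit, sub_mul, sub_mul, smul_mul_assoc, smul_mul_assoc, one_mul, one_mul,
      mul_sub, mul_one, hbme, hbpe, sub_zero, smul_sub]
    abel
  have hecomm : e * b1 = b1 * e := masa_comm hA heA hb1A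
  exact block_norm he hecomm hexp (by linarith) hbpn hbmn

lemma mem_of_commute_proj {y : H →L[ℂ] H}
    (hy : ∀ p ∈ A, IsStarProjection p → p * y = y * p) : y ∈ A := by
  have step : ∀ (n : ℕ) (b : H →L[ℂ] H) (R : ℝ), b ∈ A → IsSelfAdjoint b → ‖b‖ ≤ R →
      ‖b * y - y * b‖ ≤ 2 * ‖y‖ * R / 2 ^ n := by
    intro n
    induction n with
    | zero =>
      intro b R _ _ hR
      have h1 : ‖b * y - y * b‖ ≤ ‖b‖ * ‖y‖ + ‖y‖ * ‖b‖ :=
        (norm_sub_le _ _).trans (add_le_add (norm_mul_le _ _) (norm_mul_le _ _))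
      have h2 : ‖b‖ * ‖y‖ ≤ R * ‖y‖ := mul_le_mul_of_nonneg_right hR (norm_nonneg y)
      rw [pow_zero, div_one]
      linarith
    | succ n ih =>
      intro b R hbA hb hR
      obtain ⟨b1, e, heA, he, hb1A, hb1s, hnb, hb1⟩ := halving hA b R hbA hb hR
      have hey := hy e heA he
      have hd : b * y - y * b = b1 * y - y * b1 := by
        simp only [hb1, sub_mul, mul_sub, smul_mul_assoc, mul_smul_comm, one_mul, mul_one, hey]
        abel
      rw [hd]
      calc ‖b1 * y - y * b1‖ ≤ 2 * ‖y‖ * (R / 2) / 2 ^ n := ih b1 (R / 2) hb1A hb1s hnb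
        _ = 2 * ‖y‖ * R / 2 ^ (n + 1) := by rw [pow_succ]; ring
  have hsa : ∀ b ∈ A, IsSelfAdjoint b → b * y = y * b := by
    intro b hbA hb
    rw [← sub_eq_zero, ← norm_eq_zero]
    refine le_antisymm ?_ (norm_nonneg _)
    refine ge_of_tendsto (x := Filter.atTop)
      (f := fun n : ℕ => 2 * ‖y‖ * ‖b‖ / 2 ^ n) ?_
      (Filter.Eventually.of_forall (fun n => step n b ‖b‖ hbA hb le_rfl))
    exact tendsto_const_nhds.div_atTop (tendsto_pow_atTop_atTop_of_one_lt one_lt_two)
  refine mem_of_commute hA (fun a ha => ?_)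
  have h1 : a + star a ∈ A := add_mem ha (star_mem ha)
  have h2' : a - star a ∈ A := sub_mem ha (star_mem ha)
  have h2 : Complex.I • (a - star a) ∈ A := A.toSubalgebra.smul_mem h2' _
  have e1 := hsa _ h1 (IsSelfAdjoint.add_star_self a)
  have e2 := hsa _ h2 (by
    simp [IsSelfAdjoint, star_smul, Complex.conj_I, sub_eq_add_neg, add_comm])
  rw [smul_mul_assoc, mul_smul_comm] at e2
  have e3 := smul_right_injective (H →L[ℂ] H) Complex.I_ne_zero e2
  rw [sub_mul, mul_sub] at e3
  rw [add_mul, mul_add] at e1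
  have e4 : (2 : ℂ) • (a * y) = (2 : ℂ) • (y * a) := by
    rw [two_smul, two_smul]
    calc a * y + a * y = (a * y + star a * y) + (a * y - star a * y) := by abel
      _ = (y * a + y * star a) + (y * a - y * star a) := by rw [e1, e3]
      _ = y * a + y * a := by abel
  exact smul_right_injective (H →L[ℂ] H) (by norm_num : (2 : ℂ) ≠ 0) e4

end Vale.Agent.P078
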