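import Vale.Agent.P078.Fine

/-!
# Uniformly random colourings: second moment
-/

namespace Vale.Agent.P078

open ComplexInnerProductSpace
open Finset

/-- Centred indicator that two distinct sites have the same colour. -/
noncomputable def sameColour {N r : ℕ} (c : Fin N → Fin r) (p : Fin N × Fin N) : ℝ :=
  if p.1 = p.2 then 0 else (if c p.1 = c p.2 then 1 else 0) - 1 / (r : ℝ)

lemma sameColour_swap {N r : ℕ} (c : Fin N → Fin r) (p : Fin N × Fin N) :
    sameColour c p.swap = sameColour c p := by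
  simp [sameColour, eq_comm]

lemma abs_sameColour_le {N r : ℕ} (hr : 0 < r) (c : Fin N → Fin r) (p : Fin N × Fin N) :
    |sameColour c p| ≤ 1 := by
  have h1 : 0 ≤ 1 / (r : ℝ) := by positivity
  have h2 : 1 / (r : ℝ) ≤ 1 := by
    rw [div_le_one (by exact_mod_cast hr)]; exact_mod_cast hr
  unfold sameColour
  split_ifs <;> rw [abs_le] <;> constructor <;> linarith

lemma sum_sameColour_mul_eq_zero {N r : ℕ} [NeZero r] (p : Fin N × Fin N) (hp : p.1 ≠ p.2)
    (g : (Fin N → Fin r) → ℝ) (hg : ∀ c k, g (Function.update c p.1 k) = g c) :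
    ∑ c : Fin N → Fin r, sameColour c p * g c = 0 := by
  classical
  set h : (Fin N → Fin r) → ℝ := fun c => sameColour c p * g c with hh
  have hshift : ∀ k : Fin r, ∑ c : Fin N → Fin r, h (Function.update c p.1 (c p.1 + k))
      = ∑ c : Fin N → Fin r, h c := by
    intro k
    let e : (Fin N → Fin r) ≃ (Fin N → Fin r) :=
      { toFun := fun c => Function.update c p.1 (c p.1 + k)
        invFun := fun c => Function.update c p.1 (c p.1 - k)
        left_inv := fun c => by simp
        right_inv := fun c => by simp }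
    exact e.sum_comp h
  have hzero : ∀ c : Fin N → Fin r, ∑ k : Fin r, h (Function.update c p.1 (c p.1 + k)) = 0 := by
    intro c
    simp only [hh, hg, ← Finset.sum_mul]
    refine mul_eq_zero_of_left ?_ _
    simp only [sameColour, if_neg hp, Function.update_self, Function.update_of_ne hp.symm]
    rw [Finset.sum_sub_distrib]
    have : (∑ k : Fin r, if c p.1 + k = c p.2 then (1 : ℝ) else 0) = 1 := by
      rw [Finset.sum_eq_single (c p.2 - c p.1)]
      · simp
      · intro k _ hk
        rw [if_neg]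
        intro hk'
        exact hk (eq_sub_of_add_eq' hk')
      · simp
    rw [this]
    simp [NeZero.ne r]
  have h2 : (r : ℝ) * ∑ c : Fin N → Fin r, h c = 0 := by
    calc (r : ℝ) * ∑ c : Fin N → Fin r, h c
        = ∑ k : Fin r, ∑ c : Fin N → Fin r, h (Function.update c p.1 (c p.1 + k)) := by
          simp [hshift]
      _ = 0 := by rw [Finset.sum_comm]; simp [hzero]
  exact (mul_eq_zero.1 h2).resolve_left (by exact_mod_cast NeZero.ne r)

lemma sum_sameColour_cov_eq_zero {N r : ℕ} [NeZero r] (p q : Fin N × Fin N) (h1 : q ≠ p)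
    (h2 : q ≠ p.swap) : ∑ c : Fin N → Fin r, sameColour c p * sameColour c q = 0 := by
  by_cases hp : p.1 = p.2
  · simp [sameColour, hp]
  by_cases hq : q.1 = q.2
  · simp [sameColour, hq]
  have upd : ∀ i : Fin N, q.1 ≠ i → q.2 ≠ i → ∀ (c : Fin N → Fin r) k,
      sameColour (Function.update c i k) q = sameColour c q := by
    intro i a b c k
    simp [sameColour, Function.update_of_ne a, Function.update_of_ne b]
  by_cases hI : q.1 ≠ p.1 ∧ q.2 ≠ p.1
  · exact sum_sameColour_mul_eq_zero p hp _ (upd p.1 hI.1 hI.2)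
  by_cases hJ : q.1 ≠ p.2 ∧ q.2 ≠ p.2
  · simp only [← sameColour_swap _ p]
    exact sum_sameColour_mul_eq_zero p.swap (Ne.symm hp) _ (upd p.2 hJ.1 hJ.2)
  exfalso
  obtain ⟨a, b⟩ := p
  obtain ⟨k, l⟩ := q
  simp only [ne_eq, not_and, not_not, Prod.mk.injEq, Prod.swap_prod_mk] at *
  by_cases hka : k = a
  · subst hka
    exact h1 rfl (hJ hp)
  · have hla : l = a := hI hka
    subst hla
    have hkb : k = b := by
      by_contra h
      exact hp (hJ h)
    exact h2 hkb rfl

lemma sum_sq_norm_sameColour_le {N r : ℕ} [NeZero r] (z : Fin N × Fin N → ℂ) :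
    ∑ c : Fin N → Fin r, ‖∑ p, (sameColour c p : ℂ) * z p‖ ^ 2
      ≤ (Fintype.card (Fin N → Fin r) : ℝ) * (2 * ∑ p, ‖z p‖ ^ 2) := by
  classical
  set C : ℝ := (Fintype.card (Fin N → Fin r) : ℝ) with hC
  have hexp : ∀ c : Fin N → Fin r, ‖∑ p, (sameColour c p : ℂ) * z p‖ ^ 2
      = ∑ p, ∑ q, sameColour c p * sameColour c q *
          ((z p).re * (z q).re + (z p).im * (z q).im) := by
    intro c
    rw [Complex.sq_norm, Complex.normSq_apply]
    simp only [Complex.re_sum, Complex.im_sum, Complex.re_ofReal_mul, Complex.im_ofReal_mul,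
      Finset.sum_mul_sum]
    rw [← Finset.sum_add_distrib]
    refine Finset.sum_congr rfl (fun p _ => ?_)
    rw [← Finset.sum_add_distrib]
    exact Finset.sum_congr rfl (fun q _ => by ring)
  have hcs : ∀ p q, |(z p).re * (z q).re + (z p).im * (z q).im|
      ≤ (‖z p‖ ^ 2 + ‖z q‖ ^ 2) / 2 := by
    intro p q
    rw [Complex.sq_norm, Complex.sq_norm, Complex.normSq_apply, Complex.normSq_apply, abs_le]
    constructor <;> nlinarith [sq_nonneg ((z p).re + (z q).re), sq_nonneg ((z p).re - (z q).re),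
      sq_nonneg ((z p).im + (z q).im), sq_nonneg ((z p).im - (z q).im)]
  have hcov : ∀ p q, |∑ c : Fin N → Fin r, sameColour c p * sameColour c q| ≤
      (if q = p then C else 0) + (if q = p.swap then C else 0) := by
    intro p q
    have hC0 : 0 ≤ C := by positivity
    by_cases h : q ≠ p ∧ q ≠ p.swap
    · rw [sum_sameColour_cov_eq_zero p q h.1 h.2, abs_zero]
      positivity
    · have hb : |∑ c : Fin N → Fin r, sameColour c p * sameColour c q| ≤ C := by
        refine (Finset.abs_sum_le_sum_abs _ _).trans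
          ((Finset.sum_le_card_nsmul _ _ 1 (fun c _ => ?_)).trans (by simp [hC]))
        rw [abs_mul]
        exact mul_le_one₀ (abs_sameColour_le (NeZero.pos r) _ _) (abs_nonneg _)
          (abs_sameColour_le (NeZero.pos r) _ _)
      refine hb.trans ?_
      rw [not_and_or, not_not, not_not] at h
      rcases h with rfl | rfl
      · simp only [if_true]; split_ifs <;> linarith
      · simp only [if_true]; split_ifs <;> linarith
  calc ∑ c : Fin N → Fin r, ‖∑ p, (sameColour c p : ℂ) * z p‖ ^ 2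
      = ∑ p, ∑ q, (∑ c : Fin N → Fin r, sameColour c p * sameColour c q) *
          ((z p).re * (z q).re + (z p).im * (z q).im) := by
        simp only [hexp]
        rw [Finset.sum_comm]
        refine Finset.sum_congr rfl (fun p _ => ?_)
        rw [Finset.sum_comm]
        exact Finset.sum_congr rfl (fun q _ => (Finset.sum_mul _ _ _).symm)
    _ ≤ ∑ p, ∑ q, ((if q = p then C else 0) + (if q = p.swap then C else 0)) *
          ((‖z p‖ ^ 2 + ‖z q‖ ^ 2) / 2) := by
        refine Finset.sum_le_sum (fun p _ => Finset.sum_le_sum (fun q _ => ?_))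
        refine (le_abs_self _).trans ?_
        rw [abs_mul]
        exact mul_le_mul (hcov p q) (hcs p q) (abs_nonneg _) ((abs_nonneg _).trans (hcov p q))
    _ = ∑ p, (C * ‖z p‖ ^ 2 + C * ((‖z p‖ ^ 2 + ‖z p.swap‖ ^ 2) / 2)) := by
        refine Finset.sum_congr rfl (fun p _ => ?_)
        simp [add_mul, Finset.sum_add_distrib, ite_mul]
    _ = C * (2 * ∑ p, ‖z p‖ ^ 2) := by
        have hsw : ∑ p : Fin N × Fin N, ‖z p.swap‖ ^ 2 = ∑ p, ‖z p‖ ^ 2 :=
          (Equiv.prodComm (Fin N) (Fin N)).sum_comp (fun p => ‖z p‖ ^ 2)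
        simp only [Finset.sum_add_distrib, ← Finset.mul_sum, ← Finset.sum_div, hsw]
        ring

variable {H : Type*} [NormedAddCommGroup H] [InnerProductSpace ℂ H] [CompleteSpace H]
variable {A : StarSubalgebra ℂ (H →L[ℂ] H)}

/-- The pinching by a fine partition. -/
noncomputable def Part.pinch (P : Part A) (x : H →L[ℂ] H) : H →L[ℂ] H :=
  ∑ i, P.e i * x * P.e i

/-- The coarse piece given by one colour. -/
noncomputable def Part.piece (P : Part A) {r : ℕ} (c : Fin P.n → Fin r) (i : Fin r) :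
    H →L[ℂ] H :=
  ∑ j ∈ univ.filter (fun j => c j = i), P.e j

lemma Part.piece_props (P : Part A) {r : ℕ} (c : Fin P.n → Fin r) :
    (∀ i, P.piece c i ∈ A ∧ IsStarProjection (P.piece c i)) ∧
      (∀ i j, i ≠ j → P.piece c i * P.piece c j = 0) ∧ ∑ i, P.piece c i = 1 := by
  classical
  refine ⟨fun i => ⟨sum_mem (fun j _ => P.mem j), ?_, ?_⟩, fun i j hij => ?_, ?_⟩
  · change P.piece c i * P.piece c i = P.piece c i
    simp only [Part.piece, Finset.sum_mul_sum]
    refine Finset.sum_congr rfl (fun k hk => ?_)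
    rw [Finset.sum_eq_single_of_mem k hk (fun l _ hlk => P.orth k l (Ne.symm hlk))]
    exact (P.proj k).isIdempotentElem
  · change star (P.piece c i) = P.piece c i
    simp only [Part.piece, star_sum]
    exact Finset.sum_congr rfl (fun k _ => (P.proj k).isSelfAdjoint.star_eq)
  · simp only [Part.piece, Finset.sum_mul_sum]
    refine Finset.sum_eq_zero (fun k hk => Finset.sum_eq_zero (fun l hl => ?_))
    simp only [Finset.mem_filter] at hk hl
    exact P.orth k l (fun h => hij (by rw [← hk.2, ← hl.2, h]))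
  · rw [← P.total]
    exact Finset.sum_fiberwise univ c P.e

lemma exists_colouring (P : Part A) (x : H →L[ℂ] H) (r : ℕ) [NeZero r] {k : ℕ}
    (b : Fin k → H) (η : ℝ) (hb : ∀ l, ‖b l‖ ≤ 1) (hη : ∀ l i, ‖P.e i (b l)‖ ^ 2 ≤ η) :
    ∃ c : Fin P.n → Fin r, ∀ l m,
      ‖⟪((∑ i, P.piece c i * x * P.piece c i) - (1 / (r : ℝ)) • x
          - (1 - 1 / (r : ℝ)) • P.pinch x) (b l), b m⟫‖ ^ 2
        ≤ (k : ℝ) ^ 2 * (2 * (η * ‖x‖ ^ 2)) := by
  classical
  let z : Fin k × Fin k → Fin P.n × Fin P.n → ℂ := fun lm p =>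
    ⟪P.e p.1 (x (P.e p.2 (b lm.1))), b lm.2⟫
  have hz : ∀ lm, ∑ p, ‖z lm p‖ ^ 2 ≤ η * ‖x‖ ^ 2 := by
    rintro ⟨l, m⟩
    calc ∑ p, ‖z (l, m) p‖ ^ 2
        ≤ ∑ p : Fin P.n × Fin P.n, η * ‖P.e p.1 (x (P.e p.2 (b l)))‖ ^ 2 := by
          refine Finset.sum_le_sum (fun p _ => ?_)
          change ‖⟪P.e p.1 (x (P.e p.2 (b l))), b m⟫‖ ^ 2 ≤ _
          rw [proj_inner_apply (P.proj p.1)]
          refine (pow_le_pow_left₀ (norm_nonneg _) (norm_inner_le_norm _ _) 2).trans ?_
          rw [mul_pow, mul_comm]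
          exact mul_le_mul_of_nonneg_right (hη m p.1) (sq_nonneg _)
      _ = η * ∑ j, ‖x (P.e j (b l))‖ ^ 2 := by
          rw [← Finset.mul_sum, Fintype.sum_prod_type, Finset.sum_comm]
          simp only [P.norm_sq_sum]
      _ ≤ η * ∑ j, ‖x‖ ^ 2 * ‖P.e j (b l)‖ ^ 2 := by
          rcases isEmpty_or_nonempty (Fin P.n) with hP | ⟨⟨i0⟩⟩
          · simp
          refine mul_le_mul_of_nonneg_left (Finset.sum_le_sum (fun j _ => ?_))
            ((sq_nonneg _).trans (hη l i0))
          rw [← mul_pow]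
          exact pow_le_pow_left₀ (norm_nonneg _) (x.le_opNorm _) 2
      _ ≤ η * ‖x‖ ^ 2 := by
          rcases isEmpty_or_nonempty (Fin P.n) with hP | ⟨⟨i0⟩⟩
          · have h0 : b l = 0 := by
              have := DFunLike.congr_fun P.total (b l)
              simpa using this.symm
            have hη0 : ‖b l‖ = 0 := by simp [h0]
            have h1 : (1 : H →L[ℂ] H) = 0 := by simpa using P.total.symm
            have : x = 0 := by rw [← mul_one x, h1, mul_zero]
            simp [this]
          rw [← Finset.mul_sum, P.norm_sq_sum]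
          refine mul_le_mul_of_nonneg_left ?_ ((sq_nonneg _).trans (hη l i0))
          exact mul_le_of_le_one_right (sq_nonneg _) (pow_le_one₀ (norm_nonneg _) (hb l))
  have hid : ∀ (c : Fin P.n → Fin r) l m,
      ⟪((∑ i, P.piece c i * x * P.piece c i) - (1 / (r : ℝ)) • x
          - (1 - 1 / (r : ℝ)) • P.pinch x) (b l), b m⟫
        = ∑ p, (sameColour c p : ℂ) * z (l, m) p := by
    intro c l m
    have hS : ⟪(∑ i, P.piece c i * x * P.piece c i) (b l), b m⟫
        = ∑ p : Fin P.n × Fin P.n, if c p.1 = c p.2 then z (l, m) p else 0 := by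
      have e2 : ∀ i, (P.piece c i * x * P.piece c i) (b l)
          = P.piece c i (x (P.piece c i (b l))) := fun i => rfl
      rw [_root_.sum_apply, sum_inner]
      simp only [e2]
      simp only [Part.piece, _root_.sum_apply, map_sum, sum_inner]
      rw [Fintype.sum_prod_type]
      conv_rhs => rw [← Finset.sum_fiberwise univ c]
      refine Finset.sum_congr rfl (fun i _ => ?_)
      rw [Finset.sum_comm]
      refine Finset.sum_congr rfl (fun I hI => ?_)
      rw [Finset.sum_filter]
      refine Finset.sum_congr rfl (fun J _ => ?_)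
      simp only [Finset.mem_filter] at hI
      simp [hI.2, z, eq_comm]
    have hx : ⟪x (b l), b m⟫ = ∑ p, z (l, m) p := by
      have e1 : x = ∑ i, ∑ j, P.e i * x * P.e j := by
        simp [← Finset.mul_sum, ← Finset.sum_mul, P.total]
      conv_lhs => rw [e1]
      simp [z, _root_.sum_apply, Fintype.sum_prod_type]
    have hD : ⟪P.pinch x (b l), b m⟫ = ∑ p, if p.1 = p.2 then z (l, m) p else 0 := by
      simp [Part.pinch, z, _root_.sum_apply, Fintype.sum_prod_type]
    simp only [sub_apply, smul_apply, inner_sub_left, inner_smul_left_eq_smul,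
      Complex.real_smul, hS, hx, hD, Finset.mul_sum, ← Finset.sum_sub_distrib]
    refine Finset.sum_congr rfl (fun p _ => ?_)
    unfold sameColour
    by_cases h : p.1 = p.2
    · simp [h]; ring
    · simp only [h, if_false]
      split_ifs <;> push_cast <;> ring
  have htot : ∑ c : Fin P.n → Fin r, ∑ lm : Fin k × Fin k,
      ‖∑ p, (sameColour c p : ℂ) * z lm p‖ ^ 2
      ≤ (Fintype.card (Fin P.n → Fin r) : ℝ) * ((k : ℝ) ^ 2 * (2 * (η * ‖x‖ ^ 2))) := by
    rw [Finset.sum_comm]
    refine (Finset.sum_le_card_nsmul _ _ _ (fun lm _ =>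
      (sum_sq_norm_sameColour_le (z lm)).trans
        (mul_le_mul_of_nonneg_left (mul_le_mul_of_nonneg_left (hz lm) zero_le_two)
          (Nat.cast_nonneg _)))).trans (le_of_eq ?_)
    simp [Fintype.card_prod]
    ring
  have hne : Nonempty (Fin P.n → Fin r) := ⟨fun _ => 0⟩
  obtain ⟨c, -, hc⟩ := Finset.exists_le_of_sum_le (f := fun c : Fin P.n → Fin r =>
      ∑ lm : Fin k × Fin k, ‖∑ p, (sameColour c p : ℂ) * z lm p‖ ^ 2)
    (g := fun _ => (k : ℝ) ^ 2 * (2 * (η * ‖x‖ ^ 2))) Finset.univ_nonempty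
    (htot.trans (le_of_eq (by simp)))
  refine ⟨c, fun l m => ?_⟩
  rw [hid]
  exact le_trans (Finset.single_le_sum (fun lm _ => sq_nonneg
    ‖∑ p, (sameColour c p : ℂ) * z lm p‖) (Finset.mem_univ (l, m))) hc

end Vale.Agent.P078
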