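import Mathlib

/-!
# Strong-operator paving over an abelian algebra in B(H)
-/

namespace Vale.Agent.P078

variable {H : Type*} [NormedAddCommGroup H] [InnerProductSpace ℂ H] [CompleteSpace H]

/-- `A` is a maximal abelian self-adjoint subalgebra: it equals its commutant. -/
def IsMASA (A : StarSubalgebra ℂ (H →L[ℂ] H)) : Prop :=
  Set.centralizer (A : Set (H →L[ℂ] H)) = (A : Set (H →L[ℂ] H))

/-- `A` is diffuse: it has no minimal nonzero projection. -/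
def IsDiffuse (A : StarSubalgebra ℂ (H →L[ℂ] H)) : Prop :=
  ∀ p ∈ A, IsStarProjection p → p ≠ 0 →
    ∃ q ∈ A, IsStarProjection q ∧ q ≠ 0 ∧ q ≠ p ∧ p * q = q

/-- `x` is `(ε, r)` so-pavable over `A` inside `B(H)`. -/
def SoPavable (A : StarSubalgebra ℂ (H →L[ℂ] H)) (ε : ℝ) (r : ℕ) (x : H →L[ℂ] H) : Prop :=
  ∀ (F : Finset H) (δ : ℝ), 0 < δ →
    ∃ p : Fin r → (H →L[ℂ] H), (∀ i, p i ∈ A ∧ IsStarProjection (p i)) ∧
      (∀ i j, i ≠ j → p i * p j = 0) ∧ ∑ i, p i = 1 ∧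
      ∃ a ∈ A, IsSelfAdjoint a ∧ ‖a‖ ≤ ‖x‖ ∧
        ∃ q : H →L[ℂ] H, IsStarProjection q ∧ (∀ ξ ∈ F, ‖(1 - q) ξ‖ < δ) ∧
          ‖q * ((∑ i, p i * x * p i) - a) * q‖ ≤ ε * ‖x‖

end Vale.Agent.P078
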