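import Vale.Agent.P078.Basic

/-!
# Fine partitions of a diffuse MASA
-/

namespace Vale.Agent.P078

open ComplexInnerProductSpace
open Filter Topology

variable {H : Type*} [NormedAddCommGroup H] [InnerProductSpace ℂ H] [CompleteSpace H]

/-- A finite partition of the identity in `A`. -/
structure Part (A : StarSubalgebra ℂ (H →L[ℂ] H)) where
  n : ℕ
  e : Fin n → (H →L[ℂ] H)
  mem : ∀ i, e i ∈ A
  proj : ∀ i, IsStarProjection (e i)
  orth : ∀ i j, i ≠ j → e i * e j = 0
  total : ∑ i, e i = 1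

variable {A : StarSubalgebra ℂ (H →L[ℂ] H)}

/-- `Q` refines `P`. -/
def Part.Finer (P Q : Part A) : Prop := ∀ j : Fin Q.n, ∃ i : Fin P.n, P.e i * Q.e j = Q.e j

instance : Preorder (Part A) where
  le := Part.Finer
  le_refl P j := ⟨j, (P.proj j).isIdempotentElem⟩
  le_trans P Q R hPQ hQR k := by
    obtain ⟨j, hj⟩ := hQR k
    obtain ⟨i, hi⟩ := hPQ j
    exact ⟨i, by rw [← hj, ← mul_assoc, hi]⟩

instance : Nonempty (Part A) :=
  ⟨⟨1, fun _ => 1, fun _ => one_mem A, fun _ => IsStarProjection.one _,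
    fun i j h => absurd (Subsingleton.elim i j) h, by simp⟩⟩

lemma Part.norm_sq_sum (P : Part A) (v : H) : ∑ i, ‖P.e i v‖ ^ 2 = ‖v‖ ^ 2 := by
  have h1 : ∑ i, P.e i v = v := by
    have := DFunLike.congr_fun P.total v
    simpa [sum_apply] using this
  conv_rhs => rw [@norm_sq_eq_re_inner ℂ, ← h1]
  rw [sum_inner, map_sum]
  refine Finset.sum_congr rfl (fun i _ => ?_)
  rw [proj_inner_apply (P.proj i)]
  conv_rhs => rw [h1, ← @norm_sq_eq_re_inner ℂ]

variable (hA : IsMASA A)
include hA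

lemma Part.exists_join (P Q : Part A) : ∃ R : Part A, P ≤ R ∧ Q ≤ R := by
  let f : Fin (P.n * Q.n) → (H →L[ℂ] H) := fun k =>
    P.e (finProdFinEquiv.symm k).1 * Q.e (finProdFinEquiv.symm k).2
  refine ⟨⟨P.n * Q.n, f, fun k => mul_mem (P.mem _) (Q.mem _),
    fun k => mul_isStarProjection hA (P.proj _) (Q.proj _) (P.mem _) (Q.mem _), ?_, ?_⟩,
    fun k => ⟨(finProdFinEquiv.symm k).1, ?_⟩, fun k => ⟨(finProdFinEquiv.symm k).2, ?_⟩⟩
  · intro k l hkl
    set a := finProdFinEquiv.symm k with ha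
    set b := finProdFinEquiv.symm l with hb
    have hab : a ≠ b := fun h => hkl (finProdFinEquiv.symm.injective (ha ▸ hb ▸ h))
    change P.e a.1 * Q.e a.2 * (P.e b.1 * Q.e b.2) = 0
    have e : P.e a.1 * Q.e a.2 * (P.e b.1 * Q.e b.2)
        = (P.e a.1 * P.e b.1) * (Q.e a.2 * Q.e b.2) := by
      simp only [mul_assoc]
      rw [← mul_assoc (Q.e a.2), masa_comm hA (Q.mem a.2) (P.mem b.1), mul_assoc]
    rw [e]
    by_cases h1 : a.1 = b.1
    · rw [Q.orth _ _ (fun h2 => hab (Prod.ext h1 h2)), mul_zero]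
    · rw [P.orth _ _ h1, zero_mul]
  · rw [← Equiv.sum_comp finProdFinEquiv]
    simp only [f, Equiv.symm_apply_apply, Fintype.sum_prod_type, ← Finset.mul_sum]
    simp [Q.total, P.total]
  · change P.e _ * (P.e _ * Q.e _) = P.e _ * Q.e _
    rw [← mul_assoc, (P.proj _).isIdempotentElem]
  · change Q.e _ * (P.e _ * Q.e _) = P.e _ * Q.e _
    rw [masa_comm hA (P.mem _) (Q.mem _), ← mul_assoc, (Q.proj _).isIdempotentElem]

lemma norm_le_of_finer {P Q : Part A} (h : P ≤ Q) (w : H) {η : ℝ}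
    (hP : ∀ i, ‖P.e i w‖ ^ 2 ≤ η) (j : Fin Q.n) : ‖Q.e j w‖ ^ 2 ≤ η := by
  obtain ⟨i, hi⟩ := h j
  refine le_trans ?_ (hP i)
  rw [← hi, masa_comm hA (P.mem i) (Q.mem j)]
  exact pow_le_pow_left₀ (norm_nonneg _) (proj_norm_le (Q.proj j) _) 2

lemma sub_proj {p q : H →L[ℂ] H} (hp : p ∈ A) (hp' : IsStarProjection p) (hq : q ∈ A)
    (hq' : IsStarProjection q) (h : p * q = q) (w : H) :
    IsStarProjection (p - q) ∧ p - q ∈ A ∧ p * (p - q) = p - q ∧
      ‖p w‖ ^ 2 = ‖q w‖ ^ 2 + ‖(p - q) w‖ ^ 2 := by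
  refine ⟨?_, sub_mem hp hq, by rw [mul_sub, h, hp'.isIdempotentElem], ?_⟩
  · have : p - q = p * (1 - q) := by rw [mul_sub, mul_one, h]
    rw [this]
    exact mul_isStarProjection hA hp' hq'.one_sub hp (sub_mem (one_mem A) hq)
  · have h1 := proj_norm_sq_add hq' (p w)
    have h2 : q (p w) = q w := by
      change (q * p) w = q w
      rw [masa_comm hA hq hp, h]
    rw [h1, h2]
    rfl

omit hA in
/-- `p` splits into finitely many projections of `A` that are small on `w`. -/
def Good (A : StarSubalgebra ℂ (H →L[ℂ] H)) (w : H) (η : ℝ) (p : H →L[ℂ] H) : Prop :=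
  ∃ (n : ℕ) (e : Fin n → (H →L[ℂ] H)), (∀ i, e i ∈ A ∧ IsStarProjection (e i)) ∧
    (∀ i, p * e i = e i) ∧ (∀ i j, i ≠ j → e i * e j = 0) ∧ ∑ i, e i = p ∧
    ∀ i, ‖e i w‖ ^ 2 ≤ η

lemma good_sum {w : H} {η : ℝ} {p q : H →L[ℂ] H} (hp : p ∈ A) (hp' : IsStarProjection p)
    (hq : q ∈ A) (hq' : IsStarProjection q) (h : p * q = q) (h1 : Good A w η q)
    (h2 : Good A w η (p - q)) : Good A w η p := by
  obtain ⟨n, e, he, hle, ho, hs, hw⟩ := h1
  obtain ⟨m, f, hf, hlf, hof, hsf, hwf⟩ := h2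
  have hcross : ∀ i j, e i * f j = 0 := by
    intro i j
    rw [← hle i, ← hlf j, masa_comm hA hq (he i).1, mul_assoc, ← mul_assoc q,
      mul_sub, hq'.isIdempotentElem, masa_comm hA hq hp, h, sub_self, zero_mul, mul_zero]
  refine ⟨n + m, Fin.append e f, ?_, ?_, ?_, ?_, ?_⟩
  · intro i
    induction i using Fin.addCases with
    | left i => simpa using he i
    | right i => simpa using hf i
  · intro i
    induction i using Fin.addCases with
    | left i => rw [Fin.append_left, ← hle i, ← mul_assoc, h]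
    | right i =>
      rw [Fin.append_right, ← hlf i, ← mul_assoc, mul_sub, hp'.isIdempotentElem, h]
  · intro i j hij
    induction i using Fin.addCases with
    | left i =>
      induction j using Fin.addCases with
      | left j => simpa using ho i j (fun h => hij (by rw [h]))
      | right j => simpa using hcross i j
    | right i =>
      induction j using Fin.addCases with
      | left j =>
        simpa using (masa_comm hA (hf i).1 (he j).1).trans (hcross j i)
      | right j => simpa using hof i j (fun h => hij (by rw [h]))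
  · simp [Fin.sum_univ_add, hs, hsf]
  · intro i
    induction i using Fin.addCases with
    | left i => simpa using hw i
    | right i => simpa using hwf i

omit hA in
lemma good_single {w : H} {η : ℝ} {p : H →L[ℂ] H} (hp : p ∈ A) (hp' : IsStarProjection p)
    (h : ‖p w‖ ^ 2 ≤ η) : Good A w η p :=
  ⟨1, fun _ => p, fun _ => ⟨hp, hp'⟩, fun _ => hp'.isIdempotentElem,
    fun i j hij => absurd (Subsingleton.elim i j) hij, by simp, fun _ => h⟩

lemma good_one (hd : IsDiffuse A) (w : H) {η : ℝ} (hη : 0 < η) : Good A w η 1 := by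
  classical
  by_contra h0
  let T := {p : H →L[ℂ] H // p ∈ A ∧ IsStarProjection p ∧ ¬ Good A w η p}
  have step : ∀ (p : T) (t : ℝ), 0 < t → ∃ g : H →L[ℂ] H, g ∈ A ∧ IsStarProjection g ∧
      p.1 * g = g ∧ Good A w η g ∧ ∀ g' ∈ A, IsStarProjection g' → p.1 * g' = g' →
        Good A w η g' → ‖g' w‖ ^ 2 ≤ ‖g w‖ ^ 2 + t := by
    intro p t ht
    let S : Set ℝ := {x | ∃ g ∈ A, IsStarProjection g ∧ p.1 * g = g ∧ Good A w η g ∧
      ‖g w‖ ^ 2 = x}
    have hz : Good A w η (0 : H →L[ℂ] H) :=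
      good_single (zero_mem A) (IsStarProjection.zero _) (by simpa using hη.le)
    have hne : S.Nonempty :=
      ⟨‖(0 : H →L[ℂ] H) w‖ ^ 2, 0, zero_mem A, IsStarProjection.zero _, mul_zero _, hz, rfl⟩
    have hbd : BddAbove S := ⟨‖w‖ ^ 2, by
      rintro _ ⟨g, _, hg, _, _, rfl⟩
      exact pow_le_pow_left₀ (norm_nonneg _) (proj_norm_le hg w) 2⟩
    obtain ⟨x, ⟨g, hgA, hg, hle, hgood, rfl⟩, hx⟩ :=
      exists_lt_of_lt_csSup hne (show sSup S - t < sSup S by linarith)
    refine ⟨g, hgA, hg, hle, hgood, fun g' h1 h2 h3 h4 => ?_⟩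
    have := le_csSup hbd ⟨g', h1, h2, h3, h4, rfl⟩
    linarith
  choose g hgA hg hgle hggood hgmax using step
  let next : ℕ → T → T := fun k p =>
    ⟨p.1 - g p (1 / ((k : ℝ) + 1)) (by positivity),
      sub_mem p.2.1 (hgA _ _ _), (sub_proj hA p.2.1 p.2.2.1 (hgA _ _ _) (hg _ _ _) (hgle _ _ _) w).1,
      fun hc => p.2.2.2 (good_sum hA p.2.1 p.2.2.1 (hgA _ _ _) (hg _ _ _) (hgle _ _ _)
        (hggood _ _ _) hc)⟩
  let P : ℕ → T := fun k =>
    Nat.rec ⟨1, one_mem A, IsStarProjection.one _, h0⟩ next k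
  have hP : ∀ k, (P (k + 1)).1 = (P k).1 - g (P k) (1 / ((k : ℝ) + 1)) (by positivity) :=
    fun k => rfl
  have hmono : ∀ k l, k ≤ l → (P k).1 * (P l).1 = (P l).1 := by
    intro k l hkl
    induction l, hkl using Nat.le_induction with
    | base => exact (P k).2.2.1.isIdempotentElem
    | succ l _ ih =>
      have h1 : (P l).1 * (P (l + 1)).1 = (P (l + 1)).1 :=
        (sub_proj hA (P l).2.1 (P l).2.2.1 (hgA _ _ _) (hg _ _ _) (hgle _ _ _) w).2.2.1
      rw [← h1, ← mul_assoc, ih]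
  set om : ℕ → ℝ := fun k => ‖(P k).1 w‖ ^ 2 with hom
  have hdiff : ∀ k l, k ≤ l → ‖(P k).1 w - (P l).1 w‖ ^ 2 = om k - om l := by
    intro k l hkl
    have := (sub_proj hA (P k).2.1 (P k).2.2.1 (P l).2.1 (P l).2.2.1 (hmono k l hkl) w).2.2.2
    change ‖((P k).1 - (P l).1) w‖ ^ 2 = _
    simp only [hom]
    linarith
  have hanti : Antitone om := fun k l hkl => by
    nlinarith [hdiff k l hkl, sq_nonneg ‖(P k).1 w - (P l).1 w‖]
  have hge : ∀ k, η ≤ om k := fun k => by
    by_contra hc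
    exact (P k).2.2.2 (good_single (P k).2.1 (P k).2.2.1 (le_of_not_ge hc))
  obtain ⟨L, hL⟩ : ∃ L, Tendsto om atTop (𝓝 L) :=
    ⟨_, tendsto_atTop_ciInf hanti ⟨η, by rintro _ ⟨k, rfl⟩; exact hge k⟩⟩
  have hcau : CauchySeq (fun k => (P k).1 w) := by
    rw [Metric.cauchySeq_iff']
    intro ε hε
    have hoc := (Metric.cauchySeq_iff'.1 hL.cauchySeq) (ε ^ 2) (by positivity)
    obtain ⟨N, hN⟩ := hoc
    refine ⟨N, fun n hn => ?_⟩
    have h1 := hdiff N n hn
    have h2 := hN n hn
    rw [Real.dist_eq] at h2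
    rw [dist_eq_norm, norm_sub_rev]
    nlinarith [norm_nonneg ((P N).1 w - (P n).1 w), abs_lt.1 h2]
  obtain ⟨u, hu⟩ := cauchySeq_tendsto_of_complete hcau
  let K : Submodule ℂ H :=
    { carrier := {v | ∀ k, (P k).1 v = v}
      add_mem' := fun {a b} ha hb k => by rw [map_add, ha k, hb k]
      zero_mem' := fun k => map_zero _
      smul_mem' := fun c a ha k => by rw [map_smul, ha k] }
  have hKc : IsClosed (K : Set H) := by
    change IsClosed {v : H | ∀ k, (P k).1 v = v}
    simp only [Set.ofPred_forall]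
    exact isClosed_iInter (fun k => isClosed_eq (P k).1.continuous continuous_id)
  have : CompleteSpace K := hKc.completeSpace_coe
  have hKinv : ∀ a ∈ A, ∀ v ∈ K, a v ∈ K := fun a ha v hv k => by
    calc (P k).1 (a v) = a ((P k).1 v) := DFunLike.congr_fun (masa_comm hA (P k).2.1 ha) v
      _ = a v := by rw [hv k]
  set p := K.starProjection with hp
  have hpA : p ∈ A := proj_mem_of_invariant hA K hKinv
  have hp' : IsStarProjection p := isStarProjection_starProjection
  have hpP : ∀ k, (P k).1 * p = p := fun k =>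
    ContinuousLinearMap.ext (fun v => K.starProjection_apply_mem v k)
  have huK : u ∈ K := fun k => by
    refine tendsto_nhds_unique (((P k).1.continuous.tendsto u).comp hu) ?_
    refine hu.congr' ?_
    filter_upwards [eventually_ge_atTop k] with l hl
    exact (DFunLike.congr_fun (hmono k l hl) w).symm
  have hpw : p w = u := by
    refine Submodule.eq_starProjection_of_mem_of_inner_eq_zero huK (fun v hv => ?_)
    have hv0 : ∀ k, ⟪w - (P k).1 w, v⟫ = 0 := fun k => by
      rw [inner_sub_left, sa_inner (P k).2.2.1.isSelfAdjoint, hv k, sub_self]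
    have hlim : Tendsto (fun k => ⟪w - (P k).1 w, v⟫) atTop (𝓝 ⟪w - u, v⟫) :=
      (tendsto_const_nhds.sub hu).inner tendsto_const_nhds
    simp only [hv0] at hlim
    exact tendsto_nhds_unique hlim tendsto_const_nhds
  have hpη : η ≤ ‖p w‖ ^ 2 := by
    rw [hpw]
    exact ge_of_tendsto' ((hu.norm).pow 2) hge
  have hzero : ∀ q ∈ A, IsStarProjection q → p * q = q → ‖q w‖ ^ 2 ≤ η → ‖q w‖ ^ 2 = 0 := by
    intro q hqA hq hpq hsmall
    refine le_antisymm ?_ (sq_nonneg _)
    have hb : ∀ k : ℕ, ‖q w‖ ^ 2 ≤ (om k - om (k + 1)) + 1 / ((k : ℝ) + 1) := by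
      intro k
      have h1 := hgmax (P k) (1 / ((k : ℝ) + 1)) (by positivity) q hqA hq
        (by rw [← hpq, ← mul_assoc, hpP]) (good_single hqA hq hsmall)
      have h2 := (sub_proj hA (P k).2.1 (P k).2.2.1 (hgA _ _ _) (hg _ _ _)
        (hgle (P k) (1 / ((k : ℝ) + 1)) (by positivity)) w).2.2.2
      rw [← hP k] at h2
      simp only [hom]
      linarith
    refine ge_of_tendsto' (x := atTop) ?_ hb
    have := (hL.sub (hL.comp (tendsto_add_atTop_nat 1))).add
      tendsto_one_div_add_atTop_nhds_zero_nat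
    simpa using this
  let S : Set ℝ := {x | ∃ q ∈ A, IsStarProjection q ∧ p * q = q ∧ η < ‖q w‖ ^ 2 ∧ ‖q w‖ ^ 2 = x}
  have hpbig : η < ‖p w‖ ^ 2 := by
    refine lt_of_not_ge (fun hle => ?_)
    have := hzero p hpA hp' hp'.isIdempotentElem hle
    linarith
  have hSne : S.Nonempty := ⟨_, p, hpA, hp', hp'.isIdempotentElem, hpbig, rfl⟩
  have hSb : BddBelow S := ⟨η, by rintro _ ⟨q, _, _, _, h, rfl⟩; exact h.le⟩
  obtain ⟨x, ⟨q, hqA, hq, hpq, hqη, rfl⟩, hx⟩ :=
    exists_lt_of_csInf_lt hSne (show sInf S < sInf S + η by linarith)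
  have hatom : ∀ r ∈ A, IsStarProjection r → q * r = r → r w = 0 ∨ (q - r) w = 0 := by
    intro r hrA hr hqr
    obtain ⟨hs, hsA, hqs, hadd⟩ := sub_proj hA hqA hq hrA hr hqr w
    by_contra hc
    push Not at hc
    have hle1 : p * r = r := by rw [← hqr, ← mul_assoc, hpq]
    have hle2 : p * (q - r) = q - r := by rw [← hqs, ← mul_assoc, hpq]
    have h1 : η < ‖r w‖ ^ 2 := lt_of_not_ge (fun h => hc.1 (by
      simpa using hzero r hrA hr hle1 h))
    have h2 : η < ‖(q - r) w‖ ^ 2 := lt_of_not_ge (fun h => hc.2 (by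
      have h' := hzero (q - r) hsA hs hle2 h
      rwa [sq_eq_zero_iff, norm_eq_zero] at h'))
    have := csInf_le hSb ⟨r, hrA, hr, hle1, h1, rfl⟩
    linarith
  let app : (H →L[ℂ] H) →ₗ[ℂ] H :=
    { toFun := fun a => a (q w)
      map_add' := fun _ _ => rfl
      map_smul' := fun _ _ => rfl }
  let C : Submodule ℂ H :=
    (A.toSubalgebra.toSubmodule.map app).topologicalClosure
  have : CompleteSpace C := Submodule.topologicalClosure.completeSpace _
  have hCinv : ∀ a ∈ A, ∀ v ∈ C, a v ∈ C := by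
    intro a ha v hv
    have hmaps : Set.MapsTo a (A.toSubalgebra.toSubmodule.map app : Set H)
        (A.toSubalgebra.toSubmodule.map app : Set H) := by
      rintro _ ⟨b, hb, rfl⟩
      exact ⟨a * b, A.toSubalgebra.mul_mem ha hb, rfl⟩
    exact hmaps.closure a.continuous hv
  set c := C.starProjection with hc
  have hcA : c ∈ A := proj_mem_of_invariant hA C hCinv
  have hcfix : c (q w) = q w := by
    refine Submodule.starProjection_eq_self_iff.2 (Submodule.le_topologicalClosure _ ?_)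
    exact ⟨1, A.toSubalgebra.one_mem, rfl⟩
  have hkillC : ∀ r ∈ A, r (q w) = 0 → r * c = 0 := by
    intro r hrA hr0
    refine ContinuousLinearMap.ext (fun v => ?_)
    have hsub : (A.toSubalgebra.toSubmodule.map app : Set H) ⊆ {k : H | r k = 0} := by
      rintro _ ⟨b, hb, rfl⟩
      change r (b (q w)) = 0
      rw [show r (b (q w)) = b (r (q w)) from DFunLike.congr_fun (masa_comm hA hrA hb) (q w),
        hr0, map_zero]
    exact (isClosed_eq r.continuous continuous_const).closure_subset_iff.2 hsub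
      (C.starProjection_apply_mem v)
  have hqcA : q * c ∈ A := mul_mem hqA hcA
  have hqc : IsStarProjection (q * c) :=
    mul_isStarProjection hA hq isStarProjection_starProjection hqA hcA
  have hne : q * c ≠ 0 := by
    intro h
    have h' := DFunLike.congr_fun h (q w)
    change q (c (q w)) = 0 at h'
    rw [hcfix, proj_apply_apply hq] at h'
    rw [h'] at hqη
    simp at hqη
    linarith
  obtain ⟨r, hrA, hr, hr0, hrne, hrle⟩ := hd _ hqcA hqc hne
  have hqr : q * r = r := by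
    rw [← hrle, ← mul_assoc, ← mul_assoc, hq.isIdempotentElem]
  have hrc : r * c = r := by
    conv_lhs => rw [← hrle, masa_comm hA hqcA hrA, mul_assoc, mul_assoc]
    rw [show c * c = c from (isStarProjection_starProjection).isIdempotentElem,
      ← masa_comm hA hqcA hrA, hrle]
  have hrq : r (q w) = r w := by
    have := DFunLike.congr_fun ((masa_comm hA hrA hqA).trans hqr) w
    exact this
  rcases hatom r hrA hr hqr with h | h
  · exact hr0 (hrc ▸ hkillC r hrA (hrq.trans h))
  · refine hrne ?_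
    have h' : (q - r) * c = 0 := hkillC _ (sub_mem hqA hrA) (by
      change q (q w) - r (q w) = 0
      rw [proj_apply_apply hq, hrq]
      exact h)
    rw [sub_mul, hrc, sub_eq_zero] at h'
    exact h'.symm

lemma exists_fine (hd : IsDiffuse A) (F : Finset H) {η : ℝ} (hη : 0 < η) :
    ∃ P : Part A, ∀ w ∈ F, ∀ i, ‖P.e i w‖ ^ 2 ≤ η := by
  classical
  induction F using Finset.induction with
  | empty => exact ⟨Classical.arbitrary _, fun w hw => absurd hw (by simp)⟩
  | insert w F _ ih =>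
    obtain ⟨P, hP⟩ := ih
    obtain ⟨n, e, he, _, ho, hs, hw⟩ := good_one hA hd w hη
    let Q : Part A := ⟨n, e, fun i => (he i).1, fun i => (he i).2, ho, hs⟩
    obtain ⟨R, hPR, hQR⟩ := P.exists_join hA Q
    refine ⟨R, fun v hv => ?_⟩
    rcases Finset.mem_insert.1 hv with rfl | hv
    · exact norm_le_of_finer hA hQR v hw
    · exact norm_le_of_finer hA hPR v (hP v hv)

lemma not_finiteDimensional [Nontrivial H] (hd : IsDiffuse A) : ¬ FiniteDimensional ℂ H := by
  classical
  intro hfd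
  obtain ⟨v, hv⟩ := exists_ne (0 : H)
  set d := Module.finrank ℂ H with hdd
  have hvpos : 0 < ‖v‖ ^ 2 := by positivity
  obtain ⟨P, hP⟩ := exists_fine hA hd {v} (η := ‖v‖ ^ 2 / ((d : ℝ) + 1)) (by positivity)
  let ι := {i : Fin P.n // P.e i v ≠ 0}
  have hli : LinearIndependent ℂ (fun i : ι => P.e i.1 v) := by
    refine linearIndependent_of_ne_zero_of_inner_eq_zero (fun i => i.2) (fun i j hij => ?_)
    change ⟪P.e i.1 v, P.e j.1 v⟫ = 0
    rw [sa_inner (P.proj i.1).isSelfAdjoint]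
    change ⟪v, (P.e i.1 * P.e j.1) v⟫ = 0
    rw [P.orth _ _ (fun h => hij (Subtype.ext h))]
    simp
  have hcard : (Fintype.card ι : ℝ) ≤ d := by exact_mod_cast hli.fintype_card_le_finrank
  have hsum : ‖v‖ ^ 2 ≤ (Fintype.card ι : ℝ) * (‖v‖ ^ 2 / ((d : ℝ) + 1)) := by
    conv_lhs => rw [← P.norm_sq_sum v,
      ← Finset.sum_filter_of_ne (p := fun i => P.e i v ≠ 0) (fun i _ h h' => h (by simp [h']))]
    refine (Finset.sum_le_card_nsmul _ _ _ (fun i _ => hP v (by simp) i)).trans ?_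
    rw [nsmul_eq_mul, Fintype.card_subtype]
  rw [mul_div_assoc', le_div_iff₀ (by positivity)] at hsum
  nlinarith

end Vale.Agent.P078
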