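import Vale.Agent.P078.Colour

/-!
# Weak limit of pinchings
-/

namespace Vale.Agent.P078

open ComplexInnerProductSpace
open Filter Topology

variable {H : Type*} [NormedAddCommGroup H] [InnerProductSpace ℂ H] [CompleteSpace H]
variable {A : StarSubalgebra ℂ (H →L[ℂ] H)}

lemma Part.inner_pinch_le (P : Part A) (x : H →L[ℂ] H) (v w : H) :
    ‖⟪P.pinch x v, w⟫‖ ≤ ‖x‖ * ‖v‖ * ‖w‖ := by
  have h0 : P.pinch x v = ∑ i, P.e i (x (P.e i v)) := by
    simp [Part.pinch, _root_.sum_apply]
  rw [h0, sum_inner]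
  calc ‖∑ i, ⟪P.e i (x (P.e i v)), w⟫‖
      ≤ ∑ i, ‖x‖ * ‖P.e i v‖ * ‖P.e i w‖ := by
        refine (norm_sum_le _ _).trans (Finset.sum_le_sum (fun i _ => ?_))
        rw [sa_inner (P.proj i).isSelfAdjoint]
        refine (norm_inner_le_norm _ _).trans ?_
        exact mul_le_mul_of_nonneg_right (x.le_opNorm _) (norm_nonneg _)
    _ = ‖x‖ * ∑ i, ‖P.e i v‖ * ‖P.e i w‖ := by
        rw [Finset.mul_sum]
        exact Finset.sum_congr rfl (fun i _ => by ring)
    _ ≤ ‖x‖ * (‖v‖ * ‖w‖) := by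
        refine mul_le_mul_of_nonneg_left ?_ (norm_nonneg _)
        have h := Finset.sum_mul_sq_le_sq_mul_sq Finset.univ (fun i => ‖P.e i v‖)
          (fun i => ‖P.e i w‖)
        rw [P.norm_sq_sum, P.norm_sq_sum, ← mul_pow] at h
        exact (sq_le_sq₀ (Finset.sum_nonneg (fun i _ => by positivity)) (by positivity)).1 h
    _ = ‖x‖ * ‖v‖ * ‖w‖ := by ring

lemma Part.pinch_isSelfAdjoint (P : Part A) {x : H →L[ℂ] H} (hx : IsSelfAdjoint x) :
    IsSelfAdjoint (P.pinch x) := by
  change star (P.pinch x) = P.pinch x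
  simp only [Part.pinch, star_sum, star_mul, hx.star_eq, (P.proj _).isSelfAdjoint.star_eq,
    mul_assoc]

variable (hA : IsMASA A)
include hA

lemma exists_pinch_limit (x : H →L[ℂ] H) (hx : IsSelfAdjoint x) :
    ∃ a ∈ A, IsSelfAdjoint a ∧ ‖a‖ ≤ ‖x‖ ∧
      ∀ (P0 : Part A) (S : Finset (H × H)) (t : ℝ), 0 < t →
        ∃ P, P0 ≤ P ∧ ∀ vw ∈ S, ‖⟪(P.pinch x - a) vw.1, vw.2⟫‖ ≤ t := by
  classical
  have : IsDirectedOrder (Part A) := ⟨fun P Q => P.exists_join hA Q⟩
  let U : Ultrafilter (Part A) := Ultrafilter.of atTop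
  have hU : (U : Filter (Part A)) ≤ atTop := Ultrafilter.of_le _
  have hex : ∀ v w : H, ∃ L : ℂ, Tendsto (fun P : Part A => ⟪P.pinch x v, w⟫) U (𝓝 L) := by
    intro v w
    obtain ⟨L, -, hL⟩ := (isCompact_closedBall (0 : ℂ) (‖x‖ * ‖v‖ * ‖w‖)).ultrafilter_le_nhds
      (U.map (fun P => ⟪P.pinch x v, w⟫)) (by
        rw [Ultrafilter.coe_map, le_principal_iff]
        exact Filter.mem_map.2 (Filter.univ_mem' (fun P => by
          simpa using P.inner_pinch_le x v w)))
    exact ⟨L, hL⟩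
  choose L hL using hex
  let B0 : H →ₗ⋆[ℂ] H →ₗ[ℂ] ℂ :=
    LinearMap.mk₂'ₛₗ (starRingEnd ℂ) (RingHom.id ℂ) L
      (fun v v' w => tendsto_nhds_unique (hL _ _) (((hL v w).add (hL v' w)).congr
        (fun P => by rw [map_add, inner_add_left])))
      (fun c v w => tendsto_nhds_unique (hL _ _) (((hL v w).const_smul ((starRingEnd ℂ) c)).congr
        (fun P => by rw [map_smul, inner_smul_left, smul_eq_mul])))
      (fun v w w' => tendsto_nhds_unique (hL _ _) (((hL v w).add (hL v w')).congr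
        (fun P => by rw [inner_add_right])))
      (fun c v w => tendsto_nhds_unique (hL _ _) (((hL v w).const_smul c).congr
        (fun P => by rw [inner_smul_right, smul_eq_mul])))
  have hLb : ∀ v w, ‖L v w‖ ≤ ‖x‖ * ‖v‖ * ‖w‖ := fun v w =>
    le_of_tendsto' (hL v w).norm (fun P => P.inner_pinch_le x v w)
  let a : H →L[ℂ] H :=
    InnerProductSpace.continuousLinearMapOfBilin (B0.mkContinuous₂ ‖x‖ hLb)
  have ha : ∀ v w, ⟪a v, w⟫ = L v w := fun v w =>
    InnerProductSpace.continuousLinearMapOfBilin_apply _ v w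
  have hlim : ∀ v w, Tendsto (fun P : Part A => ⟪P.pinch x v, w⟫) U (𝓝 ⟪a v, w⟫) :=
    fun v w => by rw [ha]; exact hL v w
  refine ⟨a, ?_, ?_, ?_, ?_⟩
  · refine mem_of_commute_proj hA (fun p hpA hp => ?_)
    let P1 : Part A := ⟨2, ![p, 1 - p],
      fun i => by fin_cases i <;> simp [hpA, sub_mem (one_mem A) hpA],
      fun i => by fin_cases i <;> simp [hp, hp.one_sub],
      fun i j hij => by
        fin_cases i <;> fin_cases j <;>
          simp_all [mul_sub, sub_mul, hp.isIdempotentElem.eq],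
      by simp [Fin.sum_univ_two]⟩
    have hcomm : ∀ P : Part A, P1 ≤ P → p * P.pinch x = P.pinch x * p := by
      intro P hP
      simp only [Part.pinch, Finset.mul_sum, Finset.sum_mul]
      refine Finset.sum_congr rfl (fun j _ => ?_)
      have hsc : p * P.e j = P.e j ∨ p * P.e j = 0 := by
        obtain ⟨i, hi⟩ := hP j
        match i, hi with
        | ⟨0, _⟩, hi => exact Or.inl (by simpa [P1] using hi)
        | ⟨1, _⟩, hi =>
          refine Or.inr ?_
          have hi' : (1 - p) * P.e j = P.e j := by simpa [P1] using hi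
          rw [← hi', ← mul_assoc, mul_sub, mul_one, hp.isIdempotentElem.eq, sub_self, zero_mul]
      have hej : P.e j * p = p * P.e j := masa_comm hA (P.mem j) hpA
      rw [← mul_assoc, ← mul_assoc, mul_assoc (P.e j * x), hej]
      rcases hsc with h | h <;> simp [h]
    refine ContinuousLinearMap.ext (fun v => ext_inner_right ℂ (fun w => ?_))
    refine tendsto_nhds_unique (l := (U : Filter (Part A)))
      (f := fun P : Part A => ⟪p (P.pinch x v), w⟫) ?_ ?_
    · change Tendsto _ _ (𝓝 ⟪p (a v), w⟫)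
      simp only [sa_inner hp.isSelfAdjoint]
      exact hlim v (p w)
    · change Tendsto _ _ (𝓝 ⟪a (p v), w⟫)
      refine (hlim (p v) w).congr' ?_
      filter_upwards [hU (mem_atTop P1)] with P hP
      exact congrArg (fun u => ⟪u, w⟫) (DFunLike.congr_fun (hcomm P hP) v).symm
  · rw [ContinuousLinearMap.isSelfAdjoint_iff_isSymmetric]
    intro v w
    refine tendsto_nhds_unique (l := (U : Filter (Part A))) (hlim v w) ?_
    have h2 : Tendsto (fun P : Part A => (starRingEnd ℂ) ⟪P.pinch x w, v⟫) U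
        (𝓝 ((starRingEnd ℂ) ⟪a w, v⟫)) :=
      (Complex.continuous_conj.tendsto _).comp (hlim w v)
    rw [inner_conj_symm] at h2
    refine h2.congr (fun P => ?_)
    rw [inner_conj_symm, sa_inner (P.pinch_isSelfAdjoint hx)]
  · refine ContinuousLinearMap.opNorm_le_of_re_inner_le (norm_nonneg _) (fun v w hv hw => ?_)
    refine (Complex.re_le_norm _).trans ?_
    rw [ha]
    simpa [hv, hw] using hLb v w
  · intro P0 S t ht
    have h1 : ∀ᶠ P : Part A in U, P0 ≤ P := hU (mem_atTop P0)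
    have h2 : ∀ᶠ P : Part A in U, ∀ vw ∈ S, ‖⟪(P.pinch x - a) vw.1, vw.2⟫‖ ≤ t := by
      refine (Finset.eventually_all S).2 (fun vw _ => ?_)
      have h3 := ((hlim vw.1 vw.2).sub_const ⟪a vw.1, vw.2⟫).norm
      simp only [sub_self, norm_zero] at h3
      filter_upwards [h3.eventually (eventually_le_nhds ht)] with P hP
      rw [sub_apply, inner_sub_left]
      exact hP
    obtain ⟨P, hP⟩ := (h1.and h2).exists
    exact ⟨P, hP⟩

end Vale.Agent.P078
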