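import Vale.Agent.P078.Upper

/-!
# The lower bound: r colours force error at least 1 / r
-/

namespace Vale.Agent.P078

open ComplexInnerProductSpace

variable {H : Type*} [NormedAddCommGroup H] [InnerProductSpace ℂ H] [CompleteSpace H]
variable {A : StarSubalgebra ℂ (H →L[ℂ] H)}

/-- A sign attached to a Boolean. -/
def bsign (b : Bool) : ℝ := if b then 1 else -1

lemma sum_bsign_mul {n : ℕ} (i j : Fin n) :
    ∑ s : Fin n → Bool, bsign (s i) * bsign (s j)
      = if i = j then (Fintype.card (Fin n → Bool) : ℝ) else 0 := by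
  classical
  split_ifs with h
  · subst h
    have hone : ∀ b : Bool, bsign b * bsign b = 1 := fun b => by cases b <;> simp [bsign]
    simp [hone]
  · let e : (Fin n → Bool) ≃ (Fin n → Bool) :=
      Function.Involutive.toPerm (fun s => Function.update s i (!s i)) (fun s => by simp)
    have hneg : ∀ b : Bool, bsign (!b) = -bsign b := fun b => by cases b <;> simp [bsign]
    have h1 : ∑ s : Fin n → Bool,
        bsign (Function.update s i (!s i) i) * bsign (Function.update s i (!s i) j)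
        = ∑ s : Fin n → Bool, bsign (s i) * bsign (s j) :=
      e.sum_comp (fun s : Fin n → Bool => bsign (s i) * bsign (s j))
    simp only [Function.update_self, Function.update_of_ne (Ne.symm h), hneg, neg_mul,
      Finset.sum_neg_distrib] at h1
    linarith

lemma sum_sq_bsign {n : ℕ} (c : Fin n → ℝ) :
    ∑ s : Fin n → Bool, (∑ i, bsign (s i) * c i) ^ 2
      = (Fintype.card (Fin n → Bool) : ℝ) * ∑ i, c i ^ 2 := by
  classical
  simp only [sq, Finset.sum_mul_sum]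
  rw [Finset.sum_comm, Finset.mul_sum]
  refine Finset.sum_congr rfl (fun i _ => ?_)
  rw [Finset.sum_comm]
  calc ∑ j, ∑ s : Fin n → Bool, bsign (s i) * c i * (bsign (s j) * c j)
      = ∑ j, (∑ s : Fin n → Bool, bsign (s i) * bsign (s j)) * (c i * c j) := by
        refine Finset.sum_congr rfl (fun j _ => ?_)
        rw [Finset.sum_mul]
        exact Finset.sum_congr rfl (fun s _ => by ring)
    _ = _ := by simp [sum_bsign_mul]

lemma Part.sum_apply_self (P : Part A) (v : H) : ∑ i, P.e i v = v := by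
  have := DFunLike.congr_fun P.total v
  simpa [_root_.sum_apply] using this

lemma inner_near {T q : H →L[ℂ] H} (hq : IsStarProjection q) {v : H} (hv : ‖v‖ = 1) {δ : ℝ}
    (hδ : ‖(1 - q) v‖ ≤ δ) {e : ℝ} (he : ‖q * T * q‖ ≤ e) :
    |(⟪T v, v⟫).re| ≤ e + 2 * ‖T‖ * δ := by
  have hqv : ‖q v‖ ≤ 1 := (proj_norm_le hq v).trans hv.le
  have hd : ‖v - q v‖ ≤ δ := by simpa using hδ
  have h1 : ‖⟪T (v - q v), v⟫‖ ≤ ‖T‖ * δ := by
    refine (norm_inner_le_norm _ _).trans ?_
    rw [hv, mul_one]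
    exact (T.le_opNorm _).trans (mul_le_mul_of_nonneg_left hd (norm_nonneg _))
  have h2 : ‖⟪T (q v), v - q v⟫‖ ≤ ‖T‖ * δ := by
    refine (norm_inner_le_norm _ _).trans ?_
    have hTq : ‖T (q v)‖ ≤ ‖T‖ :=
      (T.le_opNorm _).trans (mul_le_of_le_one_right (norm_nonneg _) hqv)
    exact mul_le_mul hTq hd (norm_nonneg _) (norm_nonneg _)
  have h3 : ‖⟪T (q v), q v⟫‖ ≤ e := by
    rw [← sa_inner hq.isSelfAdjoint]
    change ‖⟪(q * T * q) v, v⟫‖ ≤ e
    refine (norm_inner_le_norm _ _).trans ?_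
    rw [hv, mul_one]
    refine ((q * T * q).le_opNorm v).trans ?_
    rwa [hv, mul_one]
  have h4 : ⟪T v, v⟫ = ⟪T (v - q v), v⟫ + ⟪T (q v), v - q v⟫ + ⟪T (q v), q v⟫ := by
    rw [map_sub, inner_sub_left, inner_sub_right]
    ring
  refine (Complex.abs_re_le_norm _).trans ?_
  rw [h4]
  refine (norm_add₃_le ..).trans ?_
  linarith

variable (hA : IsMASA A)
include hA

lemma one_le_of_soPavable [Nontrivial H] (hd : IsDiffuse A) {ε : ℝ} {r : ℕ}
    (h : ∀ x : H →L[ℂ] H, IsSelfAdjoint x → SoPavable A ε r x) : 1 ≤ ε * r := by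
  classical
  obtain ⟨w, hw⟩ := exists_ne (0 : H)
  set ξ : H := (‖w‖⁻¹ : ℂ) • w with hξdef
  have hξ : ‖ξ‖ = 1 := by simp [hξdef, norm_smul, hw]
  set L : Submodule ℂ H := Submodule.span ℂ {ξ}
  set x : H →L[ℂ] H := (2 : ℂ) • L.starProjection - 1 with hxdef
  have hL : IsStarProjection L.starProjection := isStarProjection_starProjection
  have hxs : IsSelfAdjoint x := by
    refine IsSelfAdjoint.sub ?_ (IsSelfAdjoint.one _)
    rw [two_smul]
    exact hL.isSelfAdjoint.add hL.isSelfAdjoint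
  have hxx : star x * x = 1 := by
    rw [hxs.star_eq, hxdef, two_smul]
    simp only [mul_sub, sub_mul, add_mul, mul_add, one_mul, mul_one, hL.isIdempotentElem.eq]
    abel
  have hxn : ‖x‖ = 1 := by
    have := CStarRing.norm_star_mul_self (x := x)
    rw [hxx, CStarRing.norm_one] at this
    nlinarith [norm_nonneg x]
  have hxin : ∀ u : H, (⟪x u, u⟫).re = 2 * ‖⟪ξ, u⟫‖ ^ 2 - ‖u‖ ^ 2 := by
    intro u
    have hu : x u = ((2 : ℂ) * ⟪ξ, u⟫) • ξ - u := by
      simp [hxdef, L, Submodule.starProjection_unit_singleton ℂ hξ, smul_smul]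
    rw [hu, inner_sub_left, inner_smul_left, Complex.sub_re, map_mul, Complex.conj_ofNat,
      mul_assoc, Complex.conj_mul', inner_self_eq_norm_sq_to_K]
    simp [← Complex.ofReal_pow]
  by_contra hlt
  push Not at hlt
  rcases Nat.eq_zero_or_pos r with hr | hr
  · subst hr
    obtain ⟨p, -, -, hsum, -⟩ := h x hxs ∅ 1 one_pos
    have h10 : (1 : H →L[ℂ] H) = 0 := by simpa using hsum.symm
    exact one_ne_zero h10
  have hrR : (0 : ℝ) < r := by exact_mod_cast hr
  set t : ℝ := (1 / (r : ℝ) - ε) / 3 with ht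
  have ht0 : 0 < t := by
    have : ε < 1 / (r : ℝ) := by rwa [lt_div_iff₀ hrR]
    rw [ht]; linarith
  obtain ⟨P, hP⟩ := exists_fine hA hd {ξ} ht0
  have hPξ : ∀ I, ‖P.e I ξ‖ ^ 2 ≤ t := hP ξ (by simp)
  let u : (Fin P.n → Bool) → (H →L[ℂ] H) := fun s => ∑ I, (bsign (s I) : ℂ) • P.e I
  have huA : ∀ s, u s ∈ A := fun s => sum_mem (fun I _ => A.toSubalgebra.smul_mem (P.mem I) _)
  have husa : ∀ s, IsSelfAdjoint (u s) := fun s => isSelfAdjoint_sum _ (fun I _ => by
    simp [IsSelfAdjoint, star_smul, (P.proj I).isSelfAdjoint.star_eq])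
  have huu : ∀ s, u s * u s = 1 := by
    intro s
    simp only [u, Finset.sum_mul_sum]
    rw [← P.total]
    refine Finset.sum_congr rfl (fun I _ => ?_)
    rw [Finset.sum_eq_single_of_mem I (Finset.mem_univ _)
      (fun J _ hJ => by rw [smul_mul_smul_comm, P.orth _ _ (Ne.symm hJ), smul_zero])]
    rw [smul_mul_smul_comm, (P.proj I).isIdempotentElem.eq]
    cases s I <;> simp [bsign]
  have hun : ∀ s, ‖u s ξ‖ = 1 := by
    intro s
    have h1 : ⟪u s ξ, u s ξ⟫ = ⟪ξ, ξ⟫ := by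
      rw [sa_inner (husa s)]
      change ⟪ξ, (u s * u s) ξ⟫ = _
      rw [huu, one_apply_eq_self]
    have h2 := congrArg Complex.re h1
    rw [← RCLike.re_to_complex, ← @norm_sq_eq_re_inner ℂ, ← RCLike.re_to_complex,
      ← @norm_sq_eq_re_inner ℂ, hξ] at h2
    exact (sq_eq_sq₀ (norm_nonneg _) zero_le_one).1 h2
  set δ : ℝ := t / (2 * ((r : ℝ) + 1)) with hδ
  obtain ⟨p, hp, hpo, hps, a, haA, ha, han, q, hq, hF, hnorm⟩ :=
    h x hxs (insert ξ (Finset.univ.image (fun s => u s ξ))) δ (by positivity)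
  set T := (∑ i, p i * x * p i) - a with hT
  have hp1 : ∀ i, ‖p i‖ ≤ 1 := fun i =>
    ContinuousLinearMap.opNorm_le_bound _ zero_le_one (fun v => by
      rw [one_mul]; exact proj_norm_le (hp i).2 v)
  have hTn : 2 * ‖T‖ * δ ≤ t := by
    have h1 : ‖T‖ ≤ (r : ℝ) + 1 := by
      refine (norm_sub_le _ _).trans (add_le_add ?_ (han.trans hxn.le))
      refine (norm_sum_le _ _).trans ((Finset.sum_le_card_nsmul _ _ 1 (fun i _ => ?_)).trans
        (by simp))
      refine (norm_mul_le _ _).trans (mul_le_one₀ ?_ (norm_nonneg _) (hp1 i))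
      exact (norm_mul_le _ _).trans (mul_le_one₀ (hp1 i) (norm_nonneg _) hxn.le)
    calc 2 * ‖T‖ * δ ≤ 2 * ((r : ℝ) + 1) * δ :=
          mul_le_mul_of_nonneg_right (by linarith) (by positivity)
      _ = t := by rw [hδ]; field_simp
  have hbound : ∀ v ∈ insert ξ (Finset.univ.image (fun s => u s ξ)), ‖v‖ = 1 →
      |(⟪T v, v⟫).re| ≤ ε + t := by
    intro v hv hv1
    have := inner_near hq hv1 (hF v hv).le hnorm
    rw [hxn, mul_one] at this
    linarith
  let Pp : Part A := ⟨r, p, fun i => (hp i).1, fun i => (hp i).2, hpo, hps⟩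
  have hform : ∀ v : H, ‖v‖ = 1 → (⟪T v, v⟫).re
      = 2 * ∑ i, ‖⟪ξ, p i v⟫‖ ^ 2 - 1 - (⟪a v, v⟫).re := by
    intro v hv
    rw [hT, sub_apply, inner_sub_left, Complex.sub_re, _root_.sum_apply, sum_inner, Complex.re_sum]
    have hterm : ∀ i, (⟪(p i * x * p i) v, v⟫).re = 2 * ‖⟪ξ, p i v⟫‖ ^ 2 - ‖p i v‖ ^ 2 := by
      intro i
      change (⟪p i (x (p i v)), v⟫).re = _
      rw [sa_inner (hp i).2.isSelfAdjoint]
      exact hxin _
    have hsq := Pp.norm_sq_sum v
    simp only [Pp] at hsq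
    simp only [hterm, Finset.sum_sub_distrib, ← Finset.mul_sum, hsq, hv, one_pow]
  set α := (⟪a ξ, ξ⟫).re with hα
  have hau : ∀ s, (⟪a (u s ξ), u s ξ⟫).re = α := by
    intro s
    rw [← sa_inner (husa s), show u s (a (u s ξ)) = a ξ from ?_]
    change (u s * a * u s) ξ = a ξ
    rw [masa_comm hA (huA s) haA, mul_assoc, huu, mul_one]
  have hω : ∀ i, ‖⟪ξ, p i ξ⟫‖ = ‖p i ξ‖ ^ 2 := by
    intro i
    rw [← inner_conj_symm, Complex.norm_conj, proj_inner_apply (hp i).2,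
      inner_self_eq_norm_sq_to_K, norm_pow, RCLike.norm_ofReal, abs_norm]
  have hlow : 1 / (r : ℝ) ≤ ∑ i, ‖⟪ξ, p i ξ⟫‖ ^ 2 := by
    simp only [hω]
    have h1 := sq_sum_le_card_mul_sum_sq (s := Finset.univ) (f := fun i : Fin r => ‖p i ξ‖ ^ 2)
    have hsq := Pp.norm_sq_sum ξ
    simp only [Pp] at hsq
    rw [hsq, hξ, Finset.card_univ, Fintype.card_fin] at h1
    rw [div_le_iff₀ hrR]
    simpa [mul_comm] using h1
  have hup : ∀ i, ∑ s : Fin P.n → Bool, ‖⟪ξ, p i (u s ξ)⟫‖ ^ 2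
      ≤ (Fintype.card (Fin P.n → Bool) : ℝ) * (t * ‖p i ξ‖ ^ 2) := by
    intro i
    let c : Fin P.n → ℝ := fun I => ‖(p i * P.e I) ξ‖ ^ 2
    have hc : ∀ I, ⟪ξ, p i (P.e I ξ)⟫ = (c I : ℂ) := by
      intro I
      have hpe := mul_isStarProjection hA (hp i).2 (P.proj I) (hp i).1 (P.mem I)
      change ⟪ξ, (p i * P.e I) ξ⟫ = _
      rw [← inner_conj_symm, proj_inner_apply hpe, inner_conj_symm, inner_self_eq_norm_sq_to_K]
      simp [c]
    have he : ∀ s, ‖⟪ξ, p i (u s ξ)⟫‖ ^ 2 = (∑ I, bsign (s I) * c I) ^ 2 := by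
      intro s
      have : ⟪ξ, p i (u s ξ)⟫ = ((∑ I, bsign (s I) * c I : ℝ) : ℂ) := by
        simp [u, _root_.sum_apply, hc]
      rw [this, Complex.norm_real, Real.norm_eq_abs, sq_abs]
    simp only [he, sum_sq_bsign]
    refine mul_le_mul_of_nonneg_left ?_ (Nat.cast_nonneg _)
    have hct : ∀ I, c I ≤ t := fun I =>
      le_trans (pow_le_pow_left₀ (norm_nonneg _) (proj_norm_le (hp i).2 _) 2) (hPξ I)
    have hcs : ∑ I, c I = ‖p i ξ‖ ^ 2 := by
      rw [← P.norm_sq_sum (p i ξ)]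
      refine Finset.sum_congr rfl (fun I _ => ?_)
      simp only [c]
      rw [masa_comm hA (hp i).1 (P.mem I)]
      rfl
    calc ∑ I, c I ^ 2 ≤ ∑ I, t * c I := Finset.sum_le_sum (fun I _ => by
          rw [sq]; exact mul_le_mul_of_nonneg_right (hct I) (sq_nonneg _))
      _ = t * ‖p i ξ‖ ^ 2 := by rw [← Finset.mul_sum, hcs]
  have hne : Nonempty (Fin P.n → Bool) := ⟨fun _ => true⟩
  obtain ⟨s, -, hs⟩ := Finset.exists_le_of_sum_le
    (f := fun s : Fin P.n → Bool => ∑ i, ‖⟪ξ, p i (u s ξ)⟫‖ ^ 2) (g := fun _ => t)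
    Finset.univ_nonempty (by
      rw [Finset.sum_comm]
      refine (Finset.sum_le_sum (fun i _ => hup i)).trans (le_of_eq ?_)
      have hsq := Pp.norm_sq_sum ξ
      simp only [Pp] at hsq
      rw [← Finset.mul_sum, ← Finset.mul_sum, hsq, hξ]
      simp)
  have b1 := (abs_le.1 (hbound ξ (by simp) hξ)).2
  rw [hform ξ hξ] at b1
  have b2 := (abs_le.1 (hbound (u s ξ) (by simp) (hun s))).1
  rw [hform _ (hun s), hau] at b2
  have hte : 3 * t = 1 / (r : ℝ) - ε := by rw [ht]; ring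
  linarith

end Vale.Agent.P078
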