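import Vale.Agent.P078.Limit

/-!
# The upper bound: r colours give error 1 / r
-/

namespace Vale.Agent.P078

open ComplexInnerProductSpace
open Filter Topology

variable {H : Type*} [NormedAddCommGroup H] [InnerProductSpace ℂ H] [CompleteSpace H]

/-- The fixed space at the top of the numerical range. -/
noncomputable def topSpace (x : H →L[ℂ] H) : Submodule ℂ H := (x - (‖x‖ : ℂ) • (1 : H →L[ℂ] H)).ker

omit [CompleteSpace H] in
lemma mem_topSpace {x : H →L[ℂ] H} {v : H} : v ∈ topSpace x ↔ x v = (‖x‖ : ℂ) • v := by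
  rw [topSpace, LinearMap.mem_ker]
  simp [sub_eq_zero]

lemma exists_orthonormal_of_not_finite (W : Submodule ℂ H) (hW : ¬ FiniteDimensional ℂ W) (k : ℕ) :
    ∃ f : Fin k → H, Orthonormal ℂ f ∧ ∀ i, f i ∈ W := by
  have h1 : Cardinal.aleph0 ≤ Module.rank ℂ W := by
    rw [← not_lt, Module.rank_lt_aleph0_iff]
    exact hW
  obtain ⟨g, hg⟩ := exists_linearIndependent_of_le_rank (R := ℂ) (M := W)
    (le_trans (Cardinal.natCast_le_aleph0 (n := k)) h1)
  let f' : Fin k → W := InnerProductSpace.gramSchmidtNormed ℂ g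
  have hf' : Orthonormal ℂ f' := InnerProductSpace.gramSchmidtNormed_orthonormal hg
  exact ⟨fun i => (f' i : H), hf'.comp_linearIsometry W.subtypeₗᵢ, fun i => (f' i).2⟩

lemma exists_good_subspace (x : H →L[ℂ] H) (hxpos : 0 < ‖x‖)
    (hW : ¬ FiniteDimensional ℂ (topSpace x)ᗮ) (F : Finset H) {δ : ℝ} (hδ : 0 < δ) :
    ∃ (V : Submodule ℂ H) (_ : FiniteDimensional ℂ V) (γ : ℝ), 0 < γ ∧ γ ≤ ‖x‖ ∧
      (∀ ξ ∈ F, ‖(1 - V.starProjection) ξ‖ < δ) ∧
      ∀ v ∈ V, |(⟪x v, v⟫).re + γ * ‖v‖ ^ 2| ≤ (‖x‖ - γ) * ‖v‖ ^ 2 := by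
  classical
  let V0 : Submodule ℂ H := Submodule.span ℂ (F : Set H)
  have : FiniteDimensional ℂ V0 := FiniteDimensional.span_of_finite ℂ F.finite_toSet
  set k := Module.finrank ℂ V0 with hk
  let b := stdOrthonormalBasis ℂ V0
  obtain ⟨f, hf, hfW⟩ := exists_orthonormal_of_not_finite _ hW k
  let M : Matrix (Fin k) (Fin k) ℂ := fun j i => ⟪f j, (b i : H)⟫
  set R : ℝ := ∑ ξ ∈ F, ‖ξ‖ with hR
  have hR0 : 0 ≤ R := Finset.sum_nonneg (fun ξ _ => norm_nonneg ξ)
  have hbad : Set.Finite {t : ℝ | (-(t : ℂ)) ∈ spectrum ℂ M} :=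
    (Matrix.finite_spectrum M).preimage (fun a _ b _ h => Complex.ofReal_injective (neg_injective h))
  obtain ⟨t, ⟨ht0, ht1⟩, htbad⟩ :=
    ((Set.Ioo_infinite (show (0 : ℝ) < δ / (R + 1) by positivity)).sdiff hbad).nonempty
  have hunit : IsUnit (algebraMap ℂ (Matrix (Fin k) (Fin k) ℂ) (-(t : ℂ)) - M) :=
    spectrum.notMem_iff.1 htbad
  have hinj := Matrix.mulVec_injective_iff_isUnit.2 hunit
  let u : Fin k → H := fun i => (b i : H) + (t : ℂ) • f i
  let V : Submodule ℂ H := Submodule.span ℂ (Set.range u)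
  have hVfd : FiniteDimensional ℂ V := FiniteDimensional.span_of_finite ℂ (Set.finite_range u)
  have hdis : ∀ v ∈ V, x v = (‖x‖ : ℂ) • v → v = 0 := by
    intro v hv hxv
    obtain ⟨c, rfl⟩ := (Submodule.mem_span_range_iff_exists_fun ℂ).1 hv
    have hc : ∀ j, ⟪f j, ∑ i, c i • u i⟫ = 0 := fun j =>
      Submodule.inner_left_of_mem_orthogonal (mem_topSpace.2 hxv) (hfW j)
    have hc0 : c = 0 := by
      refine hinj (a₁ := c) (a₂ := 0) ?_
      rw [Matrix.mulVec_zero]
      funext j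
      have := hc j
      simp only [u, inner_sum, inner_smul_right, inner_add_right,
        orthonormal_iff_ite.1 hf] at this
      simp only [Matrix.sub_mulVec, Pi.sub_apply, Matrix.algebraMap_eq_diagonal,
        Matrix.mulVec_diagonal, Pi.zero_apply]
      simp only [mul_ite, mul_one, mul_zero, mul_add, Finset.sum_add_distrib,
        Finset.sum_ite_eq, Finset.mem_univ, if_true] at this
      have hM : Matrix.mulVec M c j = ∑ i, c i * ⟪f j, (b i : H)⟫ := by
        simp [Matrix.mulVec, dotProduct, M, mul_comm]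
      simp only [Pi.algebraMap_apply, Algebra.algebraMap_self, RingHom.id_apply, hM]
      linear_combination -this
    simp [hc0]
  have hq : ∀ ξ ∈ F, ‖(1 - V.starProjection) ξ‖ < δ := by
    intro ξ hξ
    let ξ' : V0 := ⟨ξ, Submodule.subset_span hξ⟩
    let c : Fin k → ℂ := fun i => b.repr ξ' i
    have hrep : ξ = ∑ i, c i • (b i : H) := by
      have := congrArg (Subtype.val) (b.sum_repr ξ')
      simpa [c, ξ'] using this.symm
    let v : H := ∑ i, c i • u i
    have hv : v ∈ V := Submodule.sum_mem _ (fun i _ =>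
      V.smul_mem _ (Submodule.subset_span (Set.mem_range_self i)))
    have hnorm : ‖∑ i, c i • f i‖ = ‖ξ‖ := by
      have h1 : ‖∑ i, c i • f i‖ ^ 2 = ‖∑ i, c i • (b i : H)‖ ^ 2 := by
        have hb' : Orthonormal ℂ (fun i => (b i : H)) :=
          b.orthonormal.comp_linearIsometry V0.subtypeₗᵢ
        rw [@norm_sq_eq_re_inner ℂ, @norm_sq_eq_re_inner ℂ, hf.inner_sum, hb'.inner_sum]
      rw [← hrep] at h1
      exact (sq_eq_sq₀ (norm_nonneg _) (norm_nonneg _)).1 h1
    have hdiff : ξ - v = -((t : ℂ) • ∑ i, c i • f i) := by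
      conv_lhs => rw [hrep]
      simp only [v, u, smul_add, Finset.sum_add_distrib, Finset.smul_sum, smul_comm (t : ℂ)]
      abel
    have hmin : ‖(1 - V.starProjection) ξ‖ ≤ ‖ξ - v‖ := by
      have h1 : (1 - V.starProjection) ξ = (1 - V.starProjection) (ξ - v) := by
        have h2 : V.starProjection v = v := Submodule.starProjection_eq_self_iff.2 hv
        simp only [sub_apply, one_apply_eq_self, map_sub, h2]
        abel
      rw [h1]
      exact proj_norm_le (isStarProjection_starProjection).one_sub _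
    refine hmin.trans_lt ?_
    rw [hdiff, norm_neg, norm_smul, hnorm, Complex.norm_real, Real.norm_of_nonneg ht0.le]
    have hξR : ‖ξ‖ ≤ R := Finset.single_le_sum (fun ξ _ => norm_nonneg ξ) hξ
    calc t * ‖ξ‖ ≤ t * (R + 1) := mul_le_mul_of_nonneg_left (by linarith) ht0.le
      _ < δ := by rwa [lt_div_iff₀ (by positivity)] at ht1
  let φ : V → ℝ := fun v => (⟪x (v : H), (v : H)⟫).re
  have hφb : ∀ v : V, |φ v| ≤ ‖x‖ * ‖(v : H)‖ ^ 2 := fun v => by
    refine (Complex.abs_re_le_norm _).trans ((norm_inner_le_norm _ _).trans ?_)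
    rw [sq, ← mul_assoc]
    exact mul_le_mul_of_nonneg_right (x.le_opNorm _) (norm_nonneg _)
  have hex : ∃ γ : ℝ, 0 < γ ∧ γ ≤ ‖x‖ ∧
      ∀ v : V, ‖(v : H)‖ = 1 → φ v ≤ ‖x‖ - 2 * γ := by
    by_cases hne : (Metric.sphere (0 : V) 1).Nonempty
    · have hcont : Continuous φ :=
        Complex.continuous_re.comp ((x.continuous.comp continuous_subtype_val).inner
          continuous_subtype_val)
      obtain ⟨v, hv, hmax⟩ := (isCompact_sphere (0 : V) 1).exists_isMaxOn hne hcont.continuousOn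
      rw [mem_sphere_zero_iff_norm] at hv
      have hv1 : ‖(v : H)‖ = 1 := hv
      have hlt : φ v < ‖x‖ := by
        refine lt_of_le_of_ne (by simpa [hv1] using (abs_le.1 (hφb v)).2) (fun heq => ?_)
        have h1 : ‖x (v : H) - (‖x‖ : ℂ) • (v : H)‖ ^ 2 ≤ 0 := by
          rw [norm_sub_sq (𝕜 := ℂ), inner_smul_right, norm_smul, Complex.norm_real, hv1]
          have h2 : ‖x (v : H)‖ ^ 2 ≤ ‖x‖ ^ 2 :=
            pow_le_pow_left₀ (norm_nonneg _) (by simpa [hv1] using x.le_opNorm (v : H)) 2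
          have h3 : (⟪x (v : H), (v : H)⟫).re = ‖x‖ := heq
          simp only [RCLike.re_to_complex, Complex.re_ofReal_mul, h3, norm_norm, mul_one]
          nlinarith
        have h4 : x (v : H) = (‖x‖ : ℂ) • (v : H) := by
          rw [← sub_eq_zero, ← norm_eq_zero]
          exact pow_eq_zero_iff two_ne_zero |>.1 (le_antisymm h1 (sq_nonneg _))
        have := hdis _ v.2 h4
        simp [this] at hv1
      refine ⟨(‖x‖ - φ v) / 2, by linarith, ?_, fun w hw => ?_⟩
      · have := (abs_le.1 (hφb v)).1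
        rw [hv1] at this
        linarith
      · have : φ w ≤ φ v := hmax (mem_sphere_zero_iff_norm.2 hw)
        linarith
    · refine ⟨‖x‖, hxpos, le_rfl, fun v hv => absurd ⟨v, ?_⟩ hne⟩
      exact mem_sphere_zero_iff_norm.2 hv
  obtain ⟨γ, hγ, hγx, hγv⟩ := hex
  refine ⟨V, hVfd, γ, hγ, hγx, hq, fun v hv => ?_⟩
  rcases eq_or_ne v 0 with rfl | hv0
  · simp
  have hn : 0 < ‖v‖ := norm_pos_iff.2 hv0
  have h1 := hγv ⟨((‖v‖⁻¹ : ℝ) : ℂ) • v, V.smul_mem _ hv⟩ (by simp [norm_smul, hn.ne'])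
  simp only [φ, map_smul, inner_smul_left, inner_smul_right, Complex.conj_ofReal,
    Complex.re_ofReal_mul] at h1
  have h2 := (abs_le.1 (hφb ⟨v, hv⟩)).1
  simp only [φ] at h2
  field_simp at h1
  rw [abs_le]
  constructor <;> nlinarith

variable {A : StarSubalgebra ℂ (H →L[ℂ] H)}

lemma SoPavable.neg {ε : ℝ} {r : ℕ} {x : H →L[ℂ] H} (h : SoPavable A ε r x) :
    SoPavable A ε r (-x) := by
  intro F δ hδ
  obtain ⟨p, hp, ho, hs, a, haA, ha, han, q, hq, hF, hn⟩ := h F δ hδ
  refine ⟨p, hp, ho, hs, -a, neg_mem haA, ha.neg, by simpa using han, q, hq, hF, ?_⟩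
  have : (∑ i, p i * -x * p i) - -a = -((∑ i, p i * x * p i) - a) := by
    simp [mul_neg, neg_mul, sub_eq_add_neg, add_comm]
  rw [this, mul_neg, neg_mul, norm_neg, norm_neg]
  exact hn

variable (hA : IsMASA A)
include hA

lemma soPavable_of_infinite (hd : IsDiffuse A) (x : H →L[ℂ] H) (hx : IsSelfAdjoint x)
    (hxpos : 0 < ‖x‖) (hW : ¬ FiniteDimensional ℂ (topSpace x)ᗮ) {ε : ℝ} {r : ℕ}
    (hε : 1 ≤ ε * r) : SoPavable A ε r x := by
  classical
  intro F δ hδ
  have hr : 0 < r := by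
    rcases Nat.eq_zero_or_pos r with rfl | h
    · norm_num at hε
    · exact h
  have : NeZero r := ⟨hr.ne'⟩
  have hrR : (0 : ℝ) < r := by exact_mod_cast hr
  have hr1 : (1 : ℝ) ≤ r := by exact_mod_cast hr
  obtain ⟨V, hVfd, γ, hγ, hγx, hq, hV⟩ := exists_good_subspace x hxpos hW F hδ
  set k := Module.finrank ℂ V with hk
  let b := stdOrthonormalBasis ℂ V
  let B : Fin k → H := fun i => (b i : H)
  have hBo : Orthonormal ℂ B := b.orthonormal.comp_linearIsometry V.subtypeₗᵢ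
  have hB : ∀ l, ‖B l‖ ≤ 1 := fun l => (hBo.1 l).le
  set K : ℝ := (k : ℝ) ^ 2 + 1 with hK
  set s : ℝ := γ / (2 * r * K) with hs
  have hs0 : 0 < s := by positivity
  have hK0 : K ≠ 0 := by rw [hK]; positivity
  set η : ℝ := s ^ 2 / (K * 2 * ‖x‖ ^ 2) with hη
  obtain ⟨a0, ha0A, ha0, ha0n, hlim⟩ := exists_pinch_limit hA x hx
  obtain ⟨P0, hP0⟩ := exists_fine hA hd (Finset.univ.image B) (η := η) (by positivity)
  obtain ⟨P, hP0P, hP⟩ := hlim P0
    ((Finset.univ : Finset (Fin k × Fin k)).image (fun lm => (B lm.1, B lm.2))) s hs0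
  obtain ⟨c, hc⟩ := exists_colouring P x r B η hB (fun l i =>
    norm_le_of_finer hA hP0P (B l) (hP0 (B l) (by simp)) i)
  obtain ⟨hpA, hpo, hps⟩ := P.piece_props c
  have haA : (1 - 1 / (r : ℝ)) • a0 - (γ / r : ℝ) • (1 : H →L[ℂ] H) ∈ A := by
    rw [← Complex.coe_smul, ← Complex.coe_smul]
    exact sub_mem (A.toSubalgebra.smul_mem ha0A _) (A.toSubalgebra.smul_mem (one_mem A) _)
  have hr01 : 0 ≤ 1 - 1 / (r : ℝ) := by
    rw [sub_nonneg, div_le_one hrR]; exact hr1
  refine ⟨P.piece c, hpA, hpo, hps, _, haA,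
    (IsSelfAdjoint.smul (IsSelfAdjoint.all _) ha0).sub
      (IsSelfAdjoint.smul (IsSelfAdjoint.all _) (IsSelfAdjoint.one _)), ?_,
    V.starProjection, isStarProjection_starProjection, hq, ?_⟩
  · refine (norm_sub_le _ _).trans ?_
    rw [norm_smul, norm_smul, Real.norm_of_nonneg hr01,
      Real.norm_of_nonneg (by positivity : (0 : ℝ) ≤ γ / r)]
    have h1 : ‖(1 : H →L[ℂ] H)‖ ≤ 1 := ContinuousLinearMap.norm_id_le
    have h2 : γ / r * ‖(1 : H →L[ℂ] H)‖ ≤ ‖x‖ / r :=
      (mul_le_of_le_one_right (by positivity) h1).trans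
        ((div_le_div_iff_of_pos_right hrR).2 hγx)
    have h3 := mul_le_mul_of_nonneg_left ha0n hr01
    have h4 : (1 - 1 / (r : ℝ)) * ‖x‖ + ‖x‖ / r = ‖x‖ := by ring
    linarith
  set S := ∑ i, P.piece c i * x * P.piece c i with hS
  set a' := (1 - 1 / (r : ℝ)) • a0 - (γ / r : ℝ) • (1 : H →L[ℂ] H) with ha'
  have hTs : IsSelfAdjoint (S - a') := by
    refine IsSelfAdjoint.sub (isSelfAdjoint_sum _ (fun i _ => ?_))
      ((IsSelfAdjoint.smul (IsSelfAdjoint.all _) ha0).sub
      (IsSelfAdjoint.smul (IsSelfAdjoint.all _) (IsSelfAdjoint.one _)))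
    simpa [(hpA i).2.isSelfAdjoint.star_eq] using hx.conjugate (P.piece c i)
  set q := V.starProjection with hqdef
  have hqs : IsSelfAdjoint q := isSelfAdjoint_starProjection V
  have hQs : IsSelfAdjoint (q * (S - a') * q) := by
    simpa [hqs.star_eq] using hTs.conjugate q
  set E := (S - (1 / (r : ℝ)) • x - (1 - 1 / (r : ℝ)) • P.pinch x)
      + (1 - 1 / (r : ℝ)) • (P.pinch x - a0) with hE
  have hEb : ∀ l m, ‖⟪E (B l), B m⟫‖ ≤ 2 * s := by
    intro l m
    rw [hE, add_apply, inner_add_left, smul_apply, inner_smul_left_eq_smul]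
    refine (norm_add_le _ _).trans ?_
    have h1 : ‖⟪(S - (1 / (r : ℝ)) • x - (1 - 1 / (r : ℝ)) • P.pinch x) (B l), B m⟫‖ ≤ s := by
      refine (sq_le_sq₀ (norm_nonneg _) hs0.le).1 ((hc l m).trans ?_)
      calc (k : ℝ) ^ 2 * (2 * (η * ‖x‖ ^ 2)) ≤ K * (2 * (η * ‖x‖ ^ 2)) :=
            mul_le_mul_of_nonneg_right (by rw [hK]; linarith) (by positivity)
        _ = s ^ 2 := by rw [hη]; field_simp
    have h2 : ‖(1 - 1 / (r : ℝ)) • ⟪(P.pinch x - a0) (B l), B m⟫‖ ≤ s := by
      rw [norm_smul, Real.norm_of_nonneg hr01]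
      refine (mul_le_mul_of_nonneg_left
        (hP (B l, B m) (Finset.mem_image.2 ⟨(l, m), Finset.mem_univ _, rfl⟩)) hr01).trans ?_
      exact mul_le_of_le_one_left hs0.le (by linarith [show 0 ≤ 1 / (r : ℝ) by positivity])
    linarith
  have hEv : ∀ v ∈ V, |(⟪E v, v⟫).re| ≤ γ / r * ‖v‖ ^ 2 := by
    intro v hv
    let cv : Fin k → ℂ := fun i => b.repr ⟨v, hv⟩ i
    have hrep : v = ∑ i, cv i • B i := by
      have := congrArg Subtype.val (b.sum_repr ⟨v, hv⟩)
      simpa [cv, B] using this.symm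
    have hcb : ∀ i, ‖cv i‖ ≤ ‖v‖ := fun i => by
      simp only [cv, b.repr_apply_apply]
      refine (norm_inner_le_norm _ _).trans ?_
      rw [show ‖b i‖ = 1 from b.orthonormal.1 i, one_mul]
      rfl
    refine (Complex.abs_re_le_norm _).trans ?_
    calc ‖⟪E v, v⟫‖ = ‖∑ i, ∑ j, (starRingEnd ℂ) (cv i) * (cv j * ⟪E (B i), B j⟫)‖ := by
          conv_lhs => rw [hrep]
          simp only [map_sum, map_smul, sum_inner, inner_sum, inner_smul_left, inner_smul_right,
            Finset.mul_sum]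
          rw [Finset.sum_comm]
          congr 1
          exact Finset.sum_congr rfl (fun i _ => Finset.sum_congr rfl (fun j _ => by ring))
      _ ≤ ∑ _i : Fin k, ∑ _j : Fin k, ‖v‖ * (‖v‖ * (2 * s)) := by
          refine (norm_sum_le _ _).trans (Finset.sum_le_sum (fun i _ => ?_))
          refine (norm_sum_le _ _).trans (Finset.sum_le_sum (fun j _ => ?_))
          rw [norm_mul, norm_mul, Complex.norm_conj]
          exact mul_le_mul (hcb i) (mul_le_mul (hcb j) (hEb i j) (norm_nonneg _) (norm_nonneg _))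
            (by positivity) (norm_nonneg _)
      _ = (k : ℝ) ^ 2 * (2 * s) * ‖v‖ ^ 2 := by simp; ring
      _ ≤ γ / r * ‖v‖ ^ 2 := by
          refine mul_le_mul_of_nonneg_right ?_ (sq_nonneg _)
          calc (k : ℝ) ^ 2 * (2 * s) ≤ K * (2 * s) :=
                mul_le_mul_of_nonneg_right (by rw [hK]; linarith) (by positivity)
            _ = γ / r := by rw [hs]; field_simp
  have hTv : ∀ v ∈ V, |(⟪(S - a') v, v⟫).re| ≤ ‖x‖ / r * ‖v‖ ^ 2 := by
    intro v hv
    have hdec : S - a' = E + ((1 / (r : ℝ)) • x + (γ / r : ℝ) • (1 : H →L[ℂ] H)) := by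
      rw [hE, ha', smul_sub]; abel
    rw [hdec]
    simp only [add_apply, smul_apply, one_apply_eq_self, inner_add_left,
      inner_smul_left_eq_smul, Complex.add_re, Complex.smul_re, smul_eq_mul]
    have hvv : (⟪v, v⟫).re = ‖v‖ ^ 2 := by
      rw [inner_self_eq_norm_sq_to_K]; norm_cast
    rw [hvv]
    have h1 := hEv v hv
    have h2 := mul_le_mul_of_nonneg_left (hV v hv) (inv_nonneg.2 hrR.le)
    rw [← abs_of_nonneg (inv_nonneg.2 hrR.le), ← abs_mul, abs_of_nonneg (inv_nonneg.2 hrR.le)]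
      at h2
    refine (abs_add_le _ _).trans ?_
    have h3 : 1 / (r : ℝ) * (⟪x v, v⟫).re + γ / r * ‖v‖ ^ 2
        = (r : ℝ)⁻¹ * ((⟪x v, v⟫).re + γ * ‖v‖ ^ 2) := by ring
    rw [h3]
    have h4 : (r : ℝ)⁻¹ * ((‖x‖ - γ) * ‖v‖ ^ 2) + γ / r * ‖v‖ ^ 2 = ‖x‖ / r * ‖v‖ ^ 2 := by
      ring
    linarith
  have hxr : ‖x‖ / r ≤ ε * ‖x‖ := by
    rw [div_le_iff₀ hrR]
    calc ‖x‖ = 1 * ‖x‖ := (one_mul _).symm
      _ ≤ ε * r * ‖x‖ := mul_le_mul_of_nonneg_right hε hxpos.le
      _ = ε * ‖x‖ * r := by ring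
  refine le_trans ?_ hxr
  rw [ContinuousLinearMap.norm_eq_iSup_rayleighQuotient _ hQs.isSymmetric]
  refine ciSup_le (fun v => ?_)
  rcases eq_or_ne v 0 with rfl | hv0
  · simp [ContinuousLinearMap.rayleighQuotient, ContinuousLinearMap.reApplyInnerSelf]
    positivity
  rw [ContinuousLinearMap.rayleighQuotient, ContinuousLinearMap.reApplyInnerSelf_apply, abs_div,
    abs_of_nonneg (sq_nonneg ‖v‖), div_le_iff₀ (by positivity)]
  change |(⟪q ((S - a') (q v)), v⟫).re| ≤ _
  rw [sa_inner hqs]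
  refine (hTv (q v) (V.starProjection_apply_mem v)).trans ?_
  exact mul_le_mul_of_nonneg_left
    (pow_le_pow_left₀ (norm_nonneg _) (proj_norm_le isStarProjection_starProjection v) 2)
    (by positivity)

lemma soPavable_of_le [Nontrivial H] (hd : IsDiffuse A) (x : H →L[ℂ] H) (hx : IsSelfAdjoint x)
    {ε : ℝ} {r : ℕ} (hε : 1 ≤ ε * r) : SoPavable A ε r x := by
  classical
  rcases eq_or_ne x 0 with rfl | hx0
  · intro F δ hδ
    have hr : 0 < r := by
      rcases Nat.eq_zero_or_pos r with rfl | h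
      · norm_num at hε
      · exact h
    have : NeZero r := ⟨hr.ne'⟩
    let P : Part A := Classical.arbitrary _
    obtain ⟨hpA, hpo, hps⟩ := P.piece_props (fun _ => (0 : Fin r))
    exact ⟨_, hpA, hpo, hps, 0, zero_mem A, IsSelfAdjoint.zero _, by simp, 1,
      IsStarProjection.one _, fun ξ _ => by simpa using hδ, by simp⟩
  have hpos : 0 < ‖x‖ := norm_pos_iff.2 hx0
  by_cases hW : FiniteDimensional ℂ (topSpace x)ᗮ
  · rw [← neg_neg x]
    refine SoPavable.neg (soPavable_of_infinite hA hd (-x) hx.neg (by simpa using hpos) ?_ hε)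
    intro hW'
    have hle : topSpace (-x) ≤ (topSpace x)ᗮ := by
      intro v hv
      rw [Submodule.mem_orthogonal]
      intro u hu
      rw [mem_topSpace] at hu hv
      rw [norm_neg, neg_apply] at hv
      have hv' : x v = -((‖x‖ : ℂ) • v) := by rw [← hv, neg_neg]
      have h1 := sa_inner hx u v
      rw [hu, hv', inner_smul_left, inner_neg_right, inner_smul_right, Complex.conj_ofReal] at h1
      have h2 : (2 * (‖x‖ : ℂ)) * ⟪u, v⟫ = 0 := by linear_combination h1
      exact (mul_eq_zero.1 h2).resolve_left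
        (mul_ne_zero two_ne_zero (by exact_mod_cast hpos.ne'))
    have hfd : FiniteDimensional ℂ (topSpace (-x)) := Submodule.finiteDimensional_of_le hle
    refine not_finiteDimensional hA hd ?_
    have hsup : topSpace (-x) ⊔ (topSpace (-x))ᗮ = ⊤ :=
      Submodule.sup_orthogonal_of_hasOrthogonalProjection
    have h3 : FiniteDimensional ℂ (⊤ : Submodule ℂ H) := by
      rw [← hsup]; infer_instance
    exact LinearEquiv.finiteDimensional Submodule.topEquiv
  · exact soPavable_of_infinite hA hd x hx hpos hW hε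

end Vale.Agent.P078
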